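import Crest.Agent.X277.AN.HormA
import Crest.Agent.R273.MolF_106
import Crest.Agent.T223.HmB_61
import Crest.Agent.R273.Pos_243
import Crest.Agent.T223.Hm0_77
import Crest.Agent.R273.LimB_505

-- ▼ part X261/Hs/A
section

/-!
# X261 / Hs (helper68): the abstract step of the `L²` theorem on a complete manifold

* `MolP`, `CutP` : finite rank mollifiers converging to a cut-off operator;
* `proj_cut`, `proj_cut_core` : the a-priori inequality applied to approximate projections;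
* `dem_mov` : Demailly's limit argument with moving data.
-/

set_option autoImplicit false
set_option linter.style.haveILetI false

open Filter Topology
open scoped InnerProductSpace

namespace Crest.Agent.X261.Hs

open Crest.Agent.R273.AbsStep392 Crest.Agent.X277.AN.Horm

section defs

variable {S : Type*} [AddCommGroup S] [Module ℂ S]

/-- finite rank operators `J N` which converge to `c` and almost commute with `T`, `Ts` -/
def MolP (nr : S → ℝ) (ip : S → S → ℂ) (T Ts c : S →ₗ[ℂ] S) : Prop :=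
  ∃ (J : ℕ → S →ₗ[ℂ] S) (C : ℝ), (∀ N u, nr (J N u) ≤ C * nr u) ∧
    (∀ u, Tendsto (fun N => nr (J N u - c u)) atTop (𝓝 0)) ∧
    (∀ N u, nr (T (J N u) - J N (T u)) ≤ C * nr u) ∧
    (∀ u, Tendsto (fun N => nr (T (J N u) - T (c u))) atTop (𝓝 0)) ∧
    (∀ N u, nr (Ts (J N u) - J N (Ts u)) ≤ C * nr u) ∧
    (∀ u, Tendsto (fun N => nr (Ts (J N u) - Ts (c u))) atTop (𝓝 0)) ∧
    ∀ N, ∃ (m : ℕ) (s e : Fin m → S), ∀ v, J N v = ∑ k, ip (s k) v • e k

/-- cut-off operators with small commutators -/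
def CutP (nr : S → ℝ) (ip : S → S → ℂ) (T Ts : S →ₗ[ℂ] S) (g : S) (q : S → ℝ) : Prop :=
  ∀ η > 0, ∃ c : S →ₗ[ℂ] S, (∀ u, ip g (c u) = ip g u) ∧ (∀ u, nr (c u) ≤ nr u) ∧
    (∀ u, q (c u) ≤ q u) ∧ (∀ u, nr (T (c u) - c (T u)) ≤ η * nr u) ∧
    (∀ u, nr (Ts (c u) - c (Ts u)) ≤ η * nr u) ∧ MolP nr ip T Ts c

end defs

/-- the a-priori inequality applied to approximate projections on the closed vectors -/
theorem proj_cut {S : Type*} [NormedAddCommGroup S] [InnerProductSpace ℂ S]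
    (T Ts : S →ₗ[ℂ] S) (hadj : ∀ u w, ⟪T u, w⟫_ℂ = ⟪u, Ts w⟫_ℂ) (hTT : ∀ u, T (T u) = 0)
    (g : S) (hg : T g = 0) {D Cq : ℝ} (hD : 0 ≤ D) (q : S → ℝ) (hq0 : ∀ u, 0 ≤ q u)
    (hq : ∀ u v, |q u - q v| ≤ Cq * ‖u - v‖)
    (hcut : CutP (fun u => ‖u‖) (fun u v => ⟪u, v⟫_ℂ) T Ts g q)
    (hG : ∀ v : S, ‖⟪g, v⟫_ℂ‖ ^ 2 ≤ D * (‖Ts v‖ ^ 2 + ‖T v‖ ^ 2 + q v ^ 2))
    (w : S) {τ : ℝ} (hτ : 0 < τ) :
    ∃ c : S, T c = 0 ∧ (∀ z, T z = 0 → ‖w - c‖ ^ 2 ≤ ‖w - z‖ ^ 2 + τ) ∧
      ‖c‖ ^ 2 ≤ ‖w‖ ^ 2 + τ ∧ ‖⟪g, w⟫_ℂ‖ ^ 2 ≤ D * (‖Ts w‖ ^ 2 + q c ^ 2) + τ := by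
  obtain ⟨c', d, e, hcZ, hcc, horth, hd, hdle, he, hele⟩ := exists_proj_seq (LinearMap.ker T) w
  have hqc : CauchySeq (fun N => q (c' N)) := by
    rw [Metric.cauchySeq_iff] at hcc ⊢
    intro δ hδ
    obtain ⟨N, hN⟩ := hcc (δ / (|Cq| + 1)) (by positivity)
    refine ⟨N, fun m hm k hk => ?_⟩
    have h1 := hN m hm k hk
    rw [dist_eq_norm] at h1
    rw [Real.dist_eq]
    refine (hq _ _).trans_lt ?_
    have h2 : Cq * ‖c' m - c' k‖ ≤ (|Cq| + 1) * ‖c' m - c' k‖ :=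
      mul_le_mul_of_nonneg_right ((le_abs_self _).trans (by linarith)) (norm_nonneg _)
    refine h2.trans_lt ?_
    rw [lt_div_iff₀ (by positivity)] at h1
    linarith
  obtain ⟨l, hl⟩ := cauchySeq_tendsto_of_complete hqc
  have key : ∀ η > 0, ‖⟪g, w⟫_ℂ‖ ^ 2 ≤ D * ((‖Ts w‖ + η * e) ^ 2 + (η * e) ^ 2 + l ^ 2) := by
    intro η hη
    obtain ⟨c, cg, cn, cq, cT, cTs, J, C, F1b, F1, F2b, F2, F2sb, F2s, F3⟩ := hcut η hη
    simp only at cg cn cT cTs F1b F1 F2b F2 F2sb F2s F3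
    have hfix : ∀ N, Tendsto (fun k => J N (Ts (w - c' k))) atTop (𝓝 0) := by
      intro N
      obtain ⟨m, s, e', hse⟩ := F3 N
      have h1 : (fun k => J N (Ts (w - c' k))) = fun k => ∑ l, ⟪T (s l), w - c' k⟫_ℂ • e' l := by
        funext k
        rw [hse]
        exact Finset.sum_congr rfl fun l _ => by rw [hadj]
      rw [h1]
      have h2 : Tendsto (fun k => ∑ l, ⟪T (s l), w - c' k⟫_ℂ • e' l) atTop
          (𝓝 (∑ l, (0 : ℂ) • e' l)) :=
        tendsto_finsetSum _ fun l _ => (horth _ (hTT (s l))).smul_const (e' l)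
      simpa using h2
    have hch : ∀ N : ℕ, ∃ k ≥ N, ‖J N (Ts (w - c' k))‖ < 1 / ((N : ℝ) + 1) := by
      intro N
      obtain ⟨n0, hn0⟩ := Metric.tendsto_atTop.1 (hfix N) (1 / ((N : ℝ) + 1)) (by positivity)
      refine ⟨max N n0, le_max_left _ _, ?_⟩
      have := hn0 (max N n0) (le_max_right _ _)
      rwa [dist_zero_right] at this
    choose φ hφ1 hφ2 using hch
    have hφ : Tendsto φ atTop atTop := tendsto_atTop_mono hφ1 tendsto_id
    set v : ℕ → S := fun N => c' (φ N) with hv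
    have hvc : CauchySeq v := hcc.comp_tendsto hφ
    have hTv : ∀ N, T (v N) = 0 := fun N => hcZ (φ N)
    have hve : Tendsto (fun N => ‖v N‖) atTop (𝓝 e) := he.comp hφ
    have F1' : ∀ u, Tendsto (fun N => J N u - c u) atTop (𝓝 0) := fun u =>
      tendsto_zero_iff_norm_tendsto_zero.2 (F1 u)
    have hcv : Tendsto (fun N => J N (v N) - c (v N)) atTop (𝓝 0) := by
      have h := tendsto_of_cauchy (fun N => J N - c) (C + 1)
        (fun N u => by
          have h1 : ‖(J N - c : S →ₗ[ℂ] S) u‖ ≤ ‖J N u‖ + ‖c u‖ := by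
            simpa using norm_sub_le (J N u) (c u)
          have h2 := F1b N u
          have h3 := cn u
          linarith)
        (fun u => by simpa using F1' u) v hvc
      simpa using h
    have comm : ∀ R : S →ₗ[ℂ] S, (∀ N u, ‖R (J N u) - J N (R u)‖ ≤ C * ‖u‖) →
        (∀ u, ‖R (c u) - c (R u)‖ ≤ η * ‖u‖) →
        (∀ u, Tendsto (fun N => ‖R (J N u) - R (c u)‖) atTop (𝓝 0)) →
        Tendsto (fun N => ‖(R (J N (v N)) - J N (R (v N))) - (R (c (v N)) - c (R (v N)))‖) atTop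
          (𝓝 0) := by
      intro R h1 h2 h3
      have h := tendsto_of_cauchy (fun N => (R ∘ₗ J N - J N ∘ₗ R) - (R ∘ₗ c - c ∘ₗ R)) (C + η)
        (fun N u => by
          have h4 := norm_sub_le (R (J N u) - J N (R u)) (R (c u) - c (R u))
          have h5 := h1 N u
          have h6 := h2 u
          simp only [LinearMap.sub_apply, LinearMap.comp_apply]
          linarith)
        (fun u => by
          have h4 := (tendsto_zero_iff_norm_tendsto_zero.2 (h3 u)).sub (F1' (R u))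
          rw [sub_zero] at h4
          refine h4.congr fun N => ?_
          simp only [LinearMap.sub_apply, LinearMap.comp_apply]
          abel) v hvc
      exact tendsto_zero_iff_norm_tendsto_zero.1 h
    have hT1 := comm T F2b cT F2
    have hTs := comm Ts F2sb cTs F2s
    have h2 : Tendsto (fun N => ‖J N (Ts (w - v N))‖) atTop (𝓝 0) :=
      squeeze_zero (fun _ => norm_nonneg _) (fun N => (hφ2 N).le)
        tendsto_one_div_add_atTop_nhds_zero_nat
    have hgl : Tendsto (fun N => ⟪g, J N (v N)⟫_ℂ) atTop (𝓝 ⟪g, w⟫_ℂ) := by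
      have h1 : Tendsto (fun N => ⟪g, J N (v N) - c (v N)⟫_ℂ) atTop (𝓝 ⟪g, (0 : S)⟫_ℂ) :=
        tendsto_const_nhds.inner hcv
      have h2 : Tendsto (fun N => ⟪g, w - v N⟫_ℂ) atTop (𝓝 0) := (horth g hg).comp hφ
      have h3 := (h1.sub h2).add_const ⟪g, w⟫_ℂ
      rw [inner_zero_right, sub_zero, zero_add] at h3
      refine h3.congr fun N => ?_
      rw [inner_sub_right, inner_sub_right, cg]
      ring
    set β : ℕ → ℝ := fun N =>
      ‖(T (J N (v N)) - J N (T (v N))) - (T (c (v N)) - c (T (v N)))‖ + η * ‖v N‖ with hβ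
    set α : ℕ → ℝ := fun N =>
      ‖(Ts (J N (v N)) - J N (Ts (v N))) - (Ts (c (v N)) - c (Ts (v N)))‖ + η * ‖v N‖ +
        ‖J N (Ts w) - c (Ts w)‖ + ‖Ts w‖ + ‖J N (Ts (w - v N))‖ with hα
    set γ : ℕ → ℝ := fun N => Cq * ‖J N (v N) - c (v N)‖ + q (v N) with hγ
    have lβ : Tendsto β atTop (𝓝 (0 + η * e)) := hT1.add (hve.const_mul η)
    have lα : Tendsto α atTop (𝓝 (0 + η * e + 0 + ‖Ts w‖ + 0)) :=
      (((hTs.add (hve.const_mul η)).add (F1 (Ts w))).add_const _).add h2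
    have lγ : Tendsto γ atTop (𝓝 (Cq * 0 + l)) :=
      ((tendsto_zero_iff_norm_tendsto_zero.1 hcv).const_mul Cq).add (hl.comp hφ)
    have hlim := le_of_tendsto_of_tendsto' (hgl.norm.pow 2)
      ((((lα.pow 2).add (lβ.pow 2)).add (lγ.pow 2)).const_mul D) fun N => by
        refine (hG _).trans (mul_le_mul_of_nonneg_left ?_ hD)
        have b1 : ‖T (J N (v N))‖ ≤ β N := by
          have e1 : T (J N (v N)) = ((T (J N (v N)) - J N (T (v N))) -
              (T (c (v N)) - c (T (v N)))) + (T (c (v N)) - c (T (v N))) := by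
            rw [hTv, map_zero]; abel
          conv_lhs => rw [e1]
          exact (norm_add_le _ _).trans (add_le_add le_rfl (cT _))
        have b2 : ‖Ts (J N (v N))‖ ≤ α N := by
          have e1 : Ts (J N (v N)) = ((Ts (J N (v N)) - J N (Ts (v N))) -
              (Ts (c (v N)) - c (Ts (v N)))) + (Ts (c (v N)) - c (Ts (v N))) +
              (J N (Ts w) - c (Ts w)) + c (Ts w) - J N (Ts (w - v N)) := by
            rw [map_sub, map_sub]; abel
          conv_lhs => rw [e1]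
          refine (norm_sub_le _ _).trans (add_le_add ((norm_add_le _ _).trans (add_le_add
            ((norm_add_le _ _).trans (add_le_add ((norm_add_le _ _).trans
              (add_le_add le_rfl (cTs _))) le_rfl)) (cn _))) le_rfl)
        have b3 : q (J N (v N)) ≤ γ N := by
          have h3 := (abs_le.1 (hq (J N (v N)) (c (v N)))).2
          have h4 := cq (v N)
          simp only [hγ]
          linarith
        exact add_le_add (add_le_add (pow_le_pow_left₀ (norm_nonneg _) b2 2)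
          (pow_le_pow_left₀ (norm_nonneg _) b1 2)) (pow_le_pow_left₀ (hq0 _) b3 2)
    refine hlim.trans (le_of_eq ?_)
    ring
  have hmain : ‖⟪g, w⟫_ℂ‖ ^ 2 ≤ D * (‖Ts w‖ ^ 2 + l ^ 2) := by
    have h1 : Tendsto (fun η : ℝ => D * ((‖Ts w‖ + η * e) ^ 2 + (η * e) ^ 2 + l ^ 2)) (𝓝[>] 0)
        (𝓝 (D * ((‖Ts w‖ + 0 * e) ^ 2 + (0 * e) ^ 2 + l ^ 2))) :=
      tendsto_nhdsWithin_of_tendsto_nhds (Continuous.tendsto (by fun_prop) 0)
    have h2 := ge_of_tendsto h1 (eventually_nhdsWithin_of_forall fun η hη => key η hη)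
    refine h2.trans (le_of_eq ?_)
    ring
  have e1 : ∀ᶠ N in atTop, ‖w - c' N‖ ^ 2 < d ^ 2 + τ :=
    (hd.pow 2).eventually (eventually_lt_nhds (by linarith))
  have e2 : ∀ᶠ N in atTop, ‖c' N‖ ^ 2 < e ^ 2 + τ :=
    (he.pow 2).eventually (eventually_lt_nhds (by linarith))
  have e3 : ∀ᶠ N in atTop, D * (‖Ts w‖ ^ 2 + l ^ 2) - τ < D * (‖Ts w‖ ^ 2 + q (c' N) ^ 2) :=
    (((hl.pow 2).const_add (‖Ts w‖ ^ 2)).const_mul D).eventually
      (eventually_gt_nhds (by linarith))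
  obtain ⟨N, h1, h2, h3⟩ := (e1.and (e2.and e3)).exists
  have hd0 : 0 ≤ d := ge_of_tendsto' hd fun k => norm_nonneg _
  have he0 : 0 ≤ e := ge_of_tendsto' he fun k => norm_nonneg _
  refine ⟨c' N, hcZ N, fun z hz => ?_, ?_, by linarith⟩
  · have h4 := pow_le_pow_left₀ hd0 (hdle z hz) 2
    linarith
  · have h4 := pow_le_pow_left₀ he0 hele 2
    linarith

section core

variable {S : Type*} [AddCommGroup S] [Module ℂ S]

theorem nrm_add_le (c : InnerProductSpace.Core ℂ S) (u v : S) :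
    nrm c (u + v) ≤ nrm c u + nrm c v := by
  letI : NormedAddCommGroup S := c.toNormedAddCommGroup
  exact norm_add_le u v

theorem nrm_sub_le (c : InnerProductSpace.Core ℂ S) (u v : S) :
    nrm c (u - v) ≤ nrm c u + nrm c v := by
  letI : NormedAddCommGroup S := c.toNormedAddCommGroup
  exact norm_sub_le u v


theorem nrm_sum_le (c : InnerProductSpace.Core ℂ S) {σ : Type*} (t : Finset σ) (u : σ → S) :
    nrm c (∑ i ∈ t, u i) ≤ ∑ i ∈ t, nrm c (u i) := by
  letI : NormedAddCommGroup S := c.toNormedAddCommGroup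
  exact norm_sum_le t u

/-- `proj_cut` for an inner product given by a `Core` -/
theorem proj_cut_core (c : InnerProductSpace.Core ℂ S)
    (T Ts : S →ₗ[ℂ] S) (hadj : ∀ u w, c.inner (T u) w = c.inner u (Ts w))
    (hTT : ∀ u, T (T u) = 0) (g : S) (hg : T g = 0) {D Cq : ℝ} (hD : 0 ≤ D) (q : S → ℝ)
    (hq0 : ∀ u, 0 ≤ q u) (hq : ∀ u v, |q u - q v| ≤ Cq * nrm c (u - v))
    (hcut : CutP (nrm c) c.inner T Ts g q)
    (hG : ∀ v : S, ‖c.inner g v‖ ^ 2 ≤ D * (nrm c (Ts v) ^ 2 + nrm c (T v) ^ 2 + q v ^ 2))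
    (w : S) {τ : ℝ} (hτ : 0 < τ) :
    ∃ y : S, T y = 0 ∧ (∀ z, T z = 0 → nrm c (w - y) ^ 2 ≤ nrm c (w - z) ^ 2 + τ) ∧
      nrm c y ^ 2 ≤ nrm c w ^ 2 + τ ∧
      ‖c.inner g w‖ ^ 2 ≤ D * (nrm c (Ts w) ^ 2 + q y ^ 2) + τ := by
  letI : NormedAddCommGroup S := c.toNormedAddCommGroup
  letI : InnerProductSpace ℂ S := .ofCore c.toCore
  exact proj_cut T Ts hadj hTT g hg hD q hq0 hq hcut hG w hτ

/-- **Demailly's limit argument**, moving data `g μ` -/
theorem dem_mov (c : ℕ → InnerProductSpace.Core ℂ S) (T : S →ₗ[ℂ] S) (Ts : ℕ → S → S)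
    (hadj : ∀ μ u w, (c μ).inner (T u) w = (c μ).inner u (Ts μ w))
    (mono : ∀ μ μ', μ ≤ μ' → ∀ u, nrm (c μ) u ≤ nrm (c μ') u)
    (R : ℕ → S → S) (hR : ∀ μ u w, (c μ).inner u (R μ w) = (c 0).inner u w)
    (g : ℕ → S) {D ε Cq : ℝ} (hD : 0 ≤ D) (hε : 0 ≤ ε) (hCq : 0 ≤ Cq) (q : ℕ → S → ℝ)
    (hq : ∀ μ0 w, ∀ δ > 0, ∀ᶠ μ in atTop, ∀ v, q μ v ^ 2 ≤ ε * nrm (c μ) v ^ 2 + δ +
      Cq * (nrm (c μ) v ^ 2 - nrm (c μ0) v ^ 2) + Cq * nrm (c μ0) (v - w) ^ 2)
    (hproj : ∀ μ w, ∀ τ > 0, ∃ y : S, T y = 0 ∧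
      (∀ z, T z = 0 → nrm (c μ) (w - y) ^ 2 ≤ nrm (c μ) (w - z) ^ 2 + τ) ∧
      nrm (c μ) y ^ 2 ≤ nrm (c μ) w ^ 2 + τ ∧
      ‖(c μ).inner (g μ) w‖ ^ 2 ≤ D * (nrm (c μ) (Ts μ w) ^ 2 + q μ y ^ 2) + τ) (w : S)
    {η : ℝ} (hη : 0 < η) : ∀ᶠ μ in atTop,
    ‖(c 0).inner (g μ) w‖ ^ 2 ≤ D * (nrm (c 0) (Ts 0 w) ^ 2 + ε * nrm (c 0) w ^ 2) + η := by
  have hRw : ∀ μ, nrm (c μ) (R μ w) ≤ nrm (c 0) w := by
    intro μ
    refine le_of_sq_le_mul (nrm_nonneg _ _) (nrm_nonneg _ _) ?_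
    rw [nrm_sq, hR]
    refine (Complex.re_le_norm _).trans ((nrm_cs _ _ _).trans ?_)
    exact mul_le_mul_of_nonneg_right (mono 0 μ (Nat.zero_le _) _) (nrm_nonneg _ _)
  have hTsw : ∀ μ, nrm (c μ) (Ts μ (R μ w)) ≤ nrm (c 0) (Ts 0 w) := by
    intro μ
    refine le_of_sq_le_mul (nrm_nonneg _ _) (nrm_nonneg _ _) ?_
    rw [nrm_sq, ← hadj, hR, hadj]
    refine (Complex.re_le_norm _).trans ((nrm_cs _ _ _).trans ?_)
    exact mul_le_mul_of_nonneg_right (mono 0 μ (Nat.zero_le _) _) (nrm_nonneg _ _)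
  set F : ℕ → S → ℝ := fun μ v => 2 * ((c 0).inner v w).re - nrm (c μ) v ^ 2 with hF
  have hFd : ∀ μ v, nrm (c μ) (R μ w - v) ^ 2 = nrm (c μ) (R μ w) ^ 2 - F μ v := by
    intro μ v
    rw [nrm_sub_sq, hR, hF]
    ring
  have hFle : ∀ μ v, F μ v ≤ nrm (c 0) w ^ 2 := by
    intro μ v
    have h1 := hFd μ v
    have h2 := pow_le_pow_left₀ (nrm_nonneg _ _) (hRw μ) 2
    nlinarith [sq_nonneg (nrm (c μ) (R μ w - v))]
  have hFmono : ∀ μ μ', μ ≤ μ' → ∀ v, F μ' v ≤ F μ v := by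
    intro μ μ' h v
    have h2 := pow_le_pow_left₀ (nrm_nonneg _ _) (mono μ μ' h v) 2
    simp only [hF]
    linarith
  set a : ℕ → ℝ := fun μ => sSup (F μ '' {v | T v = 0}) with ha
  have hbdd : ∀ μ, BddAbove (F μ '' {v | T v = 0}) := fun μ =>
    ⟨nrm (c 0) w ^ 2, by rintro _ ⟨v, -, rfl⟩; exact hFle μ v⟩
  have hne : ∀ μ, (F μ '' {v | T v = 0}).Nonempty := fun μ => ⟨_, 0, map_zero T, rfl⟩
  have hFa : ∀ μ v, T v = 0 → F μ v ≤ a μ := fun μ v hv => le_csSup (hbdd μ) ⟨v, hv, rfl⟩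
  have ha0 : ∀ μ, 0 ≤ a μ := by
    intro μ
    refine le_trans (le_of_eq ?_) (hFa μ 0 (map_zero T))
    have h1 : (c 0).inner 0 w = 0 := by
      have h2 := (c 0).smul_left 0 w 0
      rwa [zero_smul, map_zero, zero_mul] at h2
    have h3 : (c μ).inner 0 0 = 0 := by
      have h2 := (c μ).smul_left 0 0 0
      rwa [zero_smul, map_zero, zero_mul] at h2
    simp only [hF]
    rw [nrm_sq, h1, h3]
    simp
  set δ : ℝ := η / (D * (ε + 1 + 8 * Cq) + 1) with hδ
  have hden : 0 < D * (ε + 1 + 8 * Cq) + 1 := by positivity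
  have hδ0 : 0 < δ := div_pos hη hden
  obtain ⟨μ0, hμ0⟩ : ∃ μ0, ∀ μ, a μ0 ≤ a μ + δ := by
    have hb : BddBelow (Set.range a) := ⟨0, by rintro _ ⟨μ, rfl⟩; exact ha0 μ⟩
    obtain ⟨_, ⟨μ0, rfl⟩, h1⟩ := exists_lt_of_csInf_lt (Set.range_nonempty a)
      (show sInf (Set.range a) < sInf (Set.range a) + δ by linarith)
    exact ⟨μ0, fun μ => by linarith [csInf_le hb ⟨μ, rfl⟩]⟩
  obtain ⟨_, ⟨c0, hc0, rfl⟩, hc0a⟩ := exists_lt_of_lt_csSup (hne μ0)
    (show a μ0 - δ < sSup (F μ0 '' {v | T v = 0}) by simp only [ha]; linarith)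
  filter_upwards [eventually_ge_atTop μ0, hq μ0 c0 δ hδ0] with μ hμ hμq
  obtain ⟨y, hy0, hy1, hy2, hy3⟩ := hproj μ (R μ w) δ hδ0
  have hya : a μ ≤ F μ y + δ := by
    refine csSup_le (hne μ) ?_
    rintro _ ⟨z, hz, rfl⟩
    have h1 := hy1 z hz
    rw [hFd, hFd] at h1
    linarith
  have k1 : nrm (c μ) y ^ 2 - nrm (c μ0) y ^ 2 ≤ 2 * δ := by
    have h1 := hFa μ0 y hy0
    have h2 := hμ0 μ
    simp only [hF] at h1 hya
    linarith
  have k2 : nrm (c μ0) (y - c0) ^ 2 ≤ 6 * δ := by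
    have h1 := hFa μ0 ((1 / 2 : ℂ) • (y + c0)) (by
      have h0 : T c0 = 0 := hc0
      rw [map_smul, map_add, hy0, h0, add_zero, smul_zero])
    have h2 := hFmono μ0 μ hμ y
    have h3 := hμ0 μ
    simp only [hF] at h1 h2 hya hc0a
    rw [nrm_mid, inner_mid] at h1
    linarith
  have k3 := hμq y
  have k4 := pow_le_pow_left₀ (nrm_nonneg _ _) (hRw μ) 2
  have k5 := pow_le_pow_left₀ (nrm_nonneg _ _) (hTsw μ) 2
  have k6 : q μ y ^ 2 ≤ ε * nrm (c 0) w ^ 2 + δ * (ε + 1 + 8 * Cq) := by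
    have h1 : ε * nrm (c μ) y ^ 2 ≤ ε * (nrm (c 0) w ^ 2 + δ) :=
      mul_le_mul_of_nonneg_left (by linarith) hε
    have h2 := mul_le_mul_of_nonneg_left k1 hCq
    have h3 := mul_le_mul_of_nonneg_left k2 hCq
    nlinarith
  rw [hR] at hy3
  have k7 : D * (nrm (c μ) (Ts μ (R μ w)) ^ 2 + q μ y ^ 2) ≤
      D * (nrm (c 0) (Ts 0 w) ^ 2 + ε * nrm (c 0) w ^ 2 + δ * (ε + 1 + 8 * Cq)) :=
    mul_le_mul_of_nonneg_left (by linarith) hD
  have k8 : δ * (D * (ε + 1 + 8 * Cq) + 1) = η := div_mul_cancel₀ _ hden.ne'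
  nlinarith

end core

end Crest.Agent.X261.Hs
end

-- ▼ part X261/Hs/B
section

/-!
# X261 / Hs (helper68): compactly supported sections on a non-compact manifold

* `CS B` : compactly supported smooth sections; `pf`, `pq` : pointwise pairing and length;
* `core vol h hp hρ` : the inner product `∫ ρ ⟨u, w⟩` for a measurable weight `ρ`;
* `nrm_ext_le`, `nv_loc_le` : comparison with the torus norms in one chart.
-/

set_option autoImplicit false
set_option linter.unusedSectionVars false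
set_option linter.style.haveILetI false

open Set Filter Topology Complex MeasureTheory
open scoped ContDiff Matrix ComplexConjugate ComplexOrder

namespace Crest.Agent.X261.Hs

open Crest.Agent.R275 Crest.Agent.R275.Geo Crest.Agent.R275.Tor812 Crest.Agent.R275.TorS666
  Crest.Agent.R275.C1d194 Crest.Agent.R275.Pai323 Crest.Agent.R275.Core144
open Crest.Agent.R275.SerG398 (lint dens)
open Crest.Agent.R273.Defs_333 Crest.Agent.R273.Vm_333 Crest.Agent.R273.L2K_774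
  Crest.Agent.R273.NormC_505 Crest.Agent.R273.Mol_106
open Crest.Agent.R273.StV_37 (IsD tot tot_loc)
open Crest.Agent.T223.Hm (gl ix ix_mem Cs gl_eq gl_sm integrable_of_sm integral_gl)
open Crest.Agent.X277.AN.Horm (nrm_sq)

noncomputable section

variable {n : ℕ} {M : Type} [TopologicalSpace M] {A : Atl n M} {B B' : FBun A}

/-- the norm of an inner product core -/
abbrev nr {S : Type*} [AddCommGroup S] [Module ℂ S] (c : InnerProductSpace.Core ℂ S) (u : S) : ℝ :=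
  R273.AbsStep392.nrm c u

/-- compactly supported smooth sections -/
def CS (B : FBun A) : Submodule ℂ (Sec B) where
  carrier := {u | Cs u.1}
  add_mem' := by
    rintro u v ⟨K, hK, h1⟩ ⟨L, hL, h2⟩
    refine ⟨K ∪ L, hK.union hL, fun i x hx => ?_⟩
    simp only [mem_union, not_or] at hx
    show u.1 i x + v.1 i x = 0
    rw [h1 i x hx.1, h2 i x hx.2, add_zero]
  zero_mem' := ⟨∅, isCompact_empty, fun _ _ _ => rfl⟩
  smul_mem' := by
    rintro c u ⟨K, hK, h1⟩
    refine ⟨K, hK, fun i x hx => ?_⟩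
    show c • u.1 i x = 0
    rw [h1 i x hx, smul_zero]

theorem ext_mem_CS {κ : Type} [Fintype κ] {j : A.ι} {b : M → Matrix B.κ κ ℂ} (hb : IsAmp A j b)
    (f : κ → SPer (RI n)) : extS B j hb f ∈ CS B :=
  ⟨tsupport b, hb.cpt, fun _ _ hx => ext_zero_off B j hx f⟩

/-- extension from one chart, into the compactly supported sections -/
def extC {κ : Type} [Fintype κ] {j : A.ι} {b : M → Matrix B.κ κ ℂ} (hb : IsAmp A j b) :
    (κ → SPer (RI n)) →ₗ[ℂ] CS B := (extS B j hb).codRestrict (CS B) (ext_mem_CS hb)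

/-- localisation in one chart -/
def locC {κ : Type} [Fintype κ] {j : A.ι} {a : M → Matrix κ B.κ ℂ} (ha : IsAmp A j a) :
    CS B →ₗ[ℂ] (κ → SPer (RI n)) := C1c193.locL B j a ha ∘ₗ (CS B).subtype

theorem fop_mem [T2Space M] (T : FOp B B') {u : Sec B} (hu : u ∈ CS B) : T.T u ∈ CS B' := by
  obtain ⟨K, hK, h0⟩ := hu
  refine ⟨K, hK, fun i x hx => ?_⟩
  by_cases hi : x ∈ (A.e i).source
  · have hev : u.1 i =ᶠ[𝓝 x] fun _ => 0 := by
      filter_upwards [hK.isClosed.isOpen_compl.mem_nhds hx] with y hy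
      exact h0 i y hy
    rw [T.hT u i x hi, h0 i x hx, Matrix.mulVec_zero, add_zero]
    refine Finset.sum_eq_zero fun p _ => ?_
    rw [pdM_congr hi hev, pdM_const, Matrix.mulVec_zero]
  · exact (T.T u).2.2.1 i x hi

/-- a first order operator on the compactly supported sections -/
def fopC [T2Space M] (T : FOp B B') : CS B →ₗ[ℂ] CS B' :=
  (T.T ∘ₗ (CS B).subtype).codRestrict (CS B') fun u => fop_mem T u.2

/-- multiplication by a smooth function -/
def mulC (B : FBun A) {f : M → ℂ} (hf : A.Sm f) : CS B →ₗ[ℂ] CS B where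
  toFun u := ⟨⟨fmul f u.1.1, fmul_mem B hf u.1.2⟩, by
    obtain ⟨K, hK, h0⟩ := u.2
    refine ⟨K, hK, fun i x hx => ?_⟩
    show f x • u.1.1 i x = 0
    rw [h0 i x hx, smul_zero]⟩
  map_add' u v := Subtype.ext (Subtype.ext (funext fun i => funext fun x =>
    smul_add (f x) (u.1.1 i x) (v.1.1 i x)))
  map_smul' c u := Subtype.ext (Subtype.ext (funext fun i => funext fun x =>
    smul_comm (f x) c (u.1.1 i x)))

theorem mulC_apply {f : M → ℂ} (hf : A.Sm f) (u : CS B) (i : A.ι) (x : M) :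
    (mulC B hf u).1.1 i x = f x • u.1.1 i x := rfl

variable [Countable A.ι] (vol : HM (KB A)⁻¹) (h : HDen B)

theorem hd_isD (u w : Sec B) : IsD A (h.hd u.1 w.1) :=
  ⟨(h.isDn u.2 w.2).sm, (h.isDn u.2 w.2).tr⟩

/-- the pointwise pairing -/
def pf (u w : Sec B) (x : M) : ℂ := gl vol (h.hd u.1 w.1) x

/-- the pointwise squared length -/
def pq (u : Sec B) (x : M) : ℝ := (pf vol h u u x).re

theorem pf_def (u w : Sec B) (x : M) : pf vol h u w x =
    ((vol.w (ix A x) x)⁻¹ : ℝ) * (star (u.1 (ix A x) x) ⬝ᵥ (h.H (ix A x) x *ᵥ w.1 (ix A x) x)) :=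
  Complex.real_smul

theorem pf_eq (u w : Sec B) {i : A.ι} {x : M} (hx : x ∈ (A.e i).source) :
    pf vol h u w x = (vol.w i x : ℂ)⁻¹ * h.hd u.1 w.1 i x := gl_eq (hd_isD h u w).tr hx

theorem pq_eq (u : Sec B) {i : A.ι} {x : M} (hx : x ∈ (A.e i).source) :
    pq vol h u x = (vol.w i x)⁻¹ * (h.hd u.1 u.1 i x).re := by
  rw [pq, pf_eq vol h u u hx, ← Complex.ofReal_inv, Complex.re_ofReal_mul]

theorem pf_sm (u w : Sec B) : A.Sm (pf vol h u w) := gl_sm (hd_isD h u w)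

theorem pf_cont (u w : Sec B) : Continuous (pf vol h u w) := continuous_of_sm (pf_sm vol h u w)

theorem pq_cont (u : Sec B) : Continuous (pq vol h u) :=
  Complex.continuous_re.comp (pf_cont vol h u u)

theorem pf_conj (u w : Sec B) (x : M) : conj (pf vol h u w x) = pf vol h w u x := by
  rw [pf_eq vol h u w (ix_mem x), pf_eq vol h w u (ix_mem x), map_mul, map_inv₀,
    Complex.conj_ofReal, h.hd_conj _ _ (ix_mem x)]

theorem pf_add_left (u u' w : Sec B) (x : M) :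
    pf vol h (u + u') w x = pf vol h u w x + pf vol h u' w x := by
  simp only [pf_def, Submodule.coe_add, Pi.add_apply, star_add, add_dotProduct, mul_add]

theorem pf_smul_left (c : ℂ) (u w : Sec B) (x : M) :
    pf vol h (c • u) w x = conj c * pf vol h u w x := by
  simp only [pf_def, Submodule.coe_smul, Pi.smul_apply, star_smul, smul_dotProduct, smul_eq_mul,
    Complex.star_def]
  ring

theorem pf_zero_left {u : Sec B} (w : Sec B) {x : M} (h0 : ∀ i, u.1 i x = 0) :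
    pf vol h u w x = 0 := by
  rw [pf_def, h0, star_zero, zero_dotProduct, mul_zero]


theorem pq_nonneg (u : Sec B) (x : M) : 0 ≤ pq vol h u x := by
  rw [pq_eq vol h u (ix_mem x)]
  exact mul_nonneg (inv_pos.2 (vol.pos _ x (ix_mem x))).le
    (Complex.le_def.1 (h.hd_self_nonneg u.1 (ix_mem x))).1

theorem pf_self (u : Sec B) (x : M) : pf vol h u u x = (pq vol h u x : ℂ) :=
  (Complex.conj_eq_iff_re.1 (pf_conj vol h u u x)).symm

theorem pq_mul {f : M → ℂ} (hf : A.Sm f) (u : CS B) (x : M) :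
    pq vol h (mulC B hf u).1 x = ‖f x‖ ^ 2 * pq vol h u.1 x := by
  rw [pq_eq vol h _ (ix_mem x), pq_eq vol h _ (ix_mem x)]
  have h1 : h.hd (mulC B hf u).1.1 (mulC B hf u).1.1 (ix A x) x =
      ((‖f x‖ ^ 2 : ℝ) : ℂ) * h.hd u.1.1 u.1.1 (ix A x) x := hform_smul _ _ _
  rw [h1, Complex.re_ofReal_mul]
  ring

theorem pf_mul_right {f : M → ℂ} (hf : A.Sm f) (u : Sec B) (w : CS B) (x : M) :
    pf vol h u (mulC B hf w).1 x = f x * pf vol h u w.1 x := by
  rw [pf_def, pf_def, mulC_apply, Matrix.mulVec_smul, dotProduct_smul, smul_eq_mul]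
  ring

theorem pq_add_le (u v : Sec B) (x : M) :
    pq vol h (u + v) x ≤ 2 * pq vol h u x + 2 * pq vol h v x := by
  have h0 := pq_nonneg vol h (u - v) x
  have key : pq vol h (u + v) x + pq vol h (u - v) x = 2 * pq vol h u x + 2 * pq vol h v x := by
    simp only [pq, pf_def, Submodule.coe_add, Submodule.coe_sub, Pi.add_apply, Pi.sub_apply,
      star_add, star_sub, Matrix.mulVec_add, Matrix.mulVec_sub, add_dotProduct, sub_dotProduct,
      dotProduct_add, dotProduct_sub, Complex.re_ofReal_mul, Complex.add_re, Complex.sub_re]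
    ring
  linarith

variable [T2Space M] [MeasurableSpace M] [BorelSpace M]

/-- admissible weights -/
structure Wg (ρ : M → ℝ) : Prop where
  meas : Measurable ρ
  pos : ∀ x, 0 < ρ x
  bdd : ∀ K, IsCompact K → ∃ C, ∀ x ∈ K, ρ x ≤ C

theorem wg_one : Wg (fun _ : M => (1 : ℝ)) :=
  ⟨measurable_const, fun _ => one_pos, fun _ _ => ⟨1, fun _ _ => le_rfl⟩⟩

theorem integrable_wt {W : Type} [NormedAddCommGroup W] [NormedSpace ℝ W] {ρ : M → ℝ}
    (hm : Measurable ρ) (h0 : ∀ x, 0 ≤ ρ x) (hb : ∀ K, IsCompact K → ∃ C, ∀ x ∈ K, ρ x ≤ C)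
    {f : M → W} (hf : Continuous f) {K : Set M} (hK : IsCompact K) (hz : ∀ x ∉ K, f x = 0) :
    Integrable (fun x => ρ x • f x) (vm vol) := by
  have := isLocallyFinite_vm vol
  obtain ⟨C, hC⟩ := hb K hK
  have hi : Integrable f (vm vol) :=
    hf.integrable_of_hasCompactSupport (HasCompactSupport.intro hK hz)
  refine (hi.norm.const_mul C).mono' (hm.aestronglyMeasurable.smul hi.1)
    (Eventually.of_forall fun x => ?_)
  by_cases hx : x ∈ K
  · rw [norm_smul, Real.norm_of_nonneg (h0 x)]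
    exact mul_le_mul_of_nonneg_right (hC x hx) (norm_nonneg _)
  · rw [hz x hx, smul_zero, norm_zero, mul_zero]

theorem integrable_pf {ρ : M → ℝ} (hρ : Wg ρ) (u w : CS B) :
    Integrable (fun x => (ρ x : ℂ) * pf vol h u.1 w.1 x) (vm vol) := by
  obtain ⟨K, hK, h0⟩ := u.2
  have := integrable_wt vol hρ.meas (fun x => (hρ.pos x).le) hρ.bdd (pf_cont vol h u.1 w.1) hK
    fun x hx => pf_zero_left vol h _ fun i => h0 i x hx
  simpa only [Complex.real_smul] using this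

theorem integrable_pq {ρ : M → ℝ} (hm : Measurable ρ) (h0 : ∀ x, 0 ≤ ρ x)
    (hb : ∀ K, IsCompact K → ∃ C, ∀ x ∈ K, ρ x ≤ C) (u : CS B) :
    Integrable (fun x => ρ x * pq vol h u.1 x) (vm vol) := by
  obtain ⟨K, hK, hz⟩ := u.2
  exact integrable_wt vol hm h0 hb (pq_cont vol h u.1) hK fun x hx => by
    rw [pq, pf_zero_left vol h _ fun i => hz i x hx, Complex.zero_re]

/-- the weighted inner product -/
def ipw (ρ : M → ℝ) (u w : CS B) : ℂ := ∫ x, (ρ x : ℂ) * pf vol h u.1 w.1 x ∂(vm vol)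

theorem ipw_self (ρ : M → ℝ) (u : CS B) :
    ipw vol h ρ u u = ((∫ x, ρ x * pq vol h u.1 x ∂(vm vol) : ℝ) : ℂ) := by
  rw [ipw, ← integral_complex_ofReal]
  refine integral_congr_ae (Eventually.of_forall fun x => ?_)
  simp only [pf_self]
  push_cast
  rfl

/-- the inner product space core -/
@[reducible] def core (hp : h.Pos) {ρ : M → ℝ} (hρ : Wg ρ) : InnerProductSpace.Core ℂ (CS B) where
  inner u w := ipw vol h ρ u w
  conj_inner_symm u w := by
    show conj (ipw vol h ρ w u) = ipw vol h ρ u w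
    rw [ipw, ipw, ← integral_conj]
    refine integral_congr_ae (Eventually.of_forall fun x => ?_)
    simp only [map_mul, Complex.conj_ofReal, pf_conj]
  re_inner_nonneg u := by
    show 0 ≤ (ipw vol h ρ u u).re
    rw [ipw_self, Complex.ofReal_re]
    exact integral_nonneg fun x => mul_nonneg (hρ.pos x).le (pq_nonneg vol h _ x)
  add_left u u' w := by
    show ipw vol h ρ (u + u') w = ipw vol h ρ u w + ipw vol h ρ u' w
    rw [ipw, ipw, ipw, ← integral_add (integrable_pf vol h hρ u w) (integrable_pf vol h hρ u' w)]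
    refine integral_congr_ae (Eventually.of_forall fun x => ?_)
    simp only [Submodule.coe_add, pf_add_left, mul_add]
  smul_left u w c := by
    show ipw vol h ρ (c • u) w = conj c * ipw vol h ρ u w
    rw [ipw, ipw, ← integral_const_mul]
    refine integral_congr_ae (Eventually.of_forall fun x => ?_)
    simp only [Submodule.coe_smul, pf_smul_left]
    ring
  definite u hu := by
    have h1 : ipw vol h ρ u u = 0 := hu
    rw [ipw_self, Complex.ofReal_eq_zero, integral_eq_zero_iff_of_nonneg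
      (fun x => mul_nonneg (hρ.pos x).le (pq_nonneg vol h _ x))
      (integrable_pq vol h hρ.meas (fun x => (hρ.pos x).le) hρ.bdd u)] at h1
    have := isOpenPos_vm vol
    have h2 : pq vol h u.1 =ᵐ[vm vol] fun _ => 0 := by
      filter_upwards [h1] with x hx
      exact (mul_eq_zero.1 hx).resolve_left (hρ.pos x).ne'
    have h3 := (Continuous.ae_eq_iff_eq _ (pq_cont vol h u.1) continuous_const).1 h2
    apply Subtype.ext
    apply Subtype.ext
    funext i x
    by_cases hx : x ∈ (A.e i).source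
    · have h4 := congrFun h3 x
      rw [pq_eq vol h _ hx] at h4
      have h5 := (mul_eq_zero.1 h4).resolve_left (inv_pos.2 (vol.pos i x hx)).ne'
      by_contra hne
      have h6 := (Complex.lt_def.1 ((hp i x hx).dotProduct_mulVec_pos (x := u.1.1 i x) hne)).1
      exact h6.ne' h5
    · exact u.1.2.2.1 i x hx

theorem nrm_core_sq (hp : h.Pos) {ρ : M → ℝ} (hρ : Wg ρ) (u : CS B) :
    nr (core vol h hp hρ) u ^ 2 = ∫ x, ρ x * pq vol h u.1 x ∂(vm vol) := by
  rw [nrm_sq]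
  show (ipw vol h ρ u u).re = _
  rw [ipw_self, Complex.ofReal_re]

theorem nrm_le_of_pt (hp : h.Pos) {ρ : M → ℝ} (hρ : Wg ρ) {h' : HDen B'} (hp' : h'.Pos)
    {ρ' : M → ℝ} (hρ' : Wg ρ') {u : CS B} {u' : CS B'} {C : ℝ} (hC : 0 ≤ C)
    (hle : ∀ x, ρ x * pq vol h u.1 x ≤ C ^ 2 * (ρ' x * pq vol h' u'.1 x)) :
    nr (core vol h hp hρ) u ≤ C * nr (core vol h' hp' hρ') u' := by
  refine (abs_le_of_sq_le_sq' ?_ (mul_nonneg hC (X277.AN.Horm.nrm_nonneg _ _))).2
  rw [mul_pow, nrm_core_sq, nrm_core_sq, ← integral_const_mul]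
  exact integral_mono (integrable_pq vol h hρ.meas (fun x => (hρ.pos x).le) hρ.bdd u)
    ((integrable_pq vol h' hρ'.meas (fun x => (hρ'.pos x).le) hρ'.bdd u').const_mul _) hle

/-- the norm without weight -/
abbrev c1 (hp : h.Pos) : InnerProductSpace.Core ℂ (CS B) := core vol h hp wg_one

theorem nrm_c1_sq (hp : h.Pos) (u : CS B) :
    nr (c1 vol h hp) u ^ 2 = ∫ x, pq vol h u.1 x ∂(vm vol) := by
  rw [nrm_core_sq]
  simp only [one_mul]

theorem c1_inner (hp : h.Pos) (u w : CS B) :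
    (c1 vol h hp).inner u w = ∫ x, pf vol h u.1 w.1 x ∂(vm vol) := by
  show ipw vol h _ u w = _
  simp only [ipw, Complex.ofReal_one, one_mul]

theorem integrable_pq1 (u : CS B) : Integrable (pq vol h u.1) (vm vol) := by
  have := integrable_pq vol h wg_one.meas (fun x => (wg_one.pos x).le) wg_one.bdd u
  simpa only [one_mul] using this

theorem setInt_pq (u : Sec B) (j : A.ι) :
    ∫ x in (A.e j).source, pq vol h u x ∂(vm vol) =
      ∫ y in Ui A j, (h.hd u.1 u.1 j (sg A j y)).re := by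
  rw [setIntegral_vm vol j (pq_cont vol h u).aestronglyMeasurable]
  refine setIntegral_congr_fun (C1d194.isOpen_Ui j).measurableSet fun y hy => ?_
  have h1 := vol.pos j _ (sg_mem hy)
  simp only [smul_eq_mul]
  rw [pq_eq vol h u (sg_mem hy), mul_inv_cancel_left₀ h1.ne']

theorem sum_sq_le_nv {κ : Type} [Fintype κ] (f : κ → SPer (RI n)) :
    ∑ k, nrm 0 (f k) ^ 2 ≤ nv 0 f ^ 2 :=
  Finset.sum_sq_le_sq_sum_of_nonneg fun _ _ => nrm_nonneg _ _

/-- the extension from one chart is bounded -/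
theorem nrm_ext_le (hp : h.Pos) {κ : Type} [Fintype κ] {j : A.ι} {b : M → Matrix B.κ κ ℂ}
    (hb : IsAmp A j b) : ∃ C, 0 ≤ C ∧ ∀ f, nr (c1 vol h hp) (extC hb f) ≤ C * nv 0 f := by
  obtain ⟨C, hC0, hC⟩ := exists_upper (H := fun x => (b x)ᴴ * h.H j x * b x) hb.cpt fun k l =>
    (continuousOn_of_smAt (FOp.smAt_matmul (m := fun x => (b x)ᴴ * h.H j x)
      (FOp.smAt_matmul (m := fun x => (b x)ᴴ) (fun k l =>
        Complex.conjCLE.contDiff.comp_contDiffOn (hb.sm l k)) (h.sm j)) hb.sm k l)).mono hb.sub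
  refine ⟨Real.sqrt C, Real.sqrt_nonneg _, fun f => ?_⟩
  refine (abs_le_of_sq_le_sq' ?_ (mul_nonneg (Real.sqrt_nonneg _) (nv_nonneg _ _))).2
  rw [mul_pow, Real.sq_sqrt hC0, nrm_c1_sq,
    ← setIntegral_eq_integral_of_forall_compl_eq_zero (s := (A.e j).source) fun x hx => by
      rw [pq, pf_zero_left vol h _ fun i => ext_off' B j hx b f, Complex.zero_re],
    setInt_pq]
  have hk : ∀ k, IntegrableOn (fun y => ‖f k y‖ ^ 2) (box (0 : RI n → ℝ)) := fun k => by
    have h1 : Continuous fun y => ‖f k y‖ ^ 2 := ((f k).2.1.continuous.norm).pow 2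
    refine (h1.continuousOn.integrableOn_compact (isCompact_Icc (a := 0) (b := 1))).mono_set ?_
    intro y hy
    exact ⟨fun p => (hy p).1.le, fun p => by simpa using (hy p).2⟩
  have hsub : Ui A j ⊆ box (0 : RI n → ℝ) := (Ui_sub j).trans Qo_subset_box
  have hs : IntegrableOn (fun y => C * ∑ k, ‖f k y‖ ^ 2) (box (0 : RI n → ℝ)) :=
    (integrable_finsetSum _ fun k _ => hk k).const_mul C
  have h1 : ∫ y in Ui A j, (h.hd (extC hb f).1.1 (extC hb f).1.1 j (sg A j y)).re ≤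
      ∫ y in Ui A j, C * ∑ k, ‖f k y‖ ^ 2 := by
    refine integral_mono_of_nonneg ?_ (hs.mono_set hsub) ?_
    · refine (ae_restrict_iff' (C1d194.isOpen_Ui j).measurableSet).2
        (Eventually.of_forall fun y hy => ?_)
      exact (Complex.le_def.1 (h.hd_self_nonneg _ (sg_mem hy))).1
    · refine (ae_restrict_iff' (C1d194.isOpen_Ui j).measurableSet).2
        (Eventually.of_forall fun y hy => ?_)
      have e1 : (extC hb f).1.1 j (sg A j y) = b (sg A j y) *ᵥ fun l => f l y := by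
        refine (ext_self B j (sg_mem hy) b f).trans ?_
        rw [sg, (A.e j).right_inv hy, rc_cc]
      show Complex.re (star _ ⬝ᵥ (_ *ᵥ _)) ≤ _
      rw [e1]
      by_cases hx : sg A j y ∈ tsupport b
      · have h2 := hC _ hx fun l => f l y
        rwa [← Matrix.mulVec_mulVec, ← Matrix.mulVec_mulVec, Matrix.dotProduct_mulVec,
          ← Matrix.star_mulVec] at h2
      · rw [amp_zero hx, Matrix.zero_mulVec, star_zero, zero_dotProduct, Complex.zero_re]
        positivity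
  refine h1.trans ((setIntegral_mono_set hs (Eventually.of_forall fun y => by positivity)
    hsub.eventuallyLE).trans ?_)
  rw [integral_const_mul, integral_finsetSum _ fun k _ => hk k]
  refine mul_le_mul_of_nonneg_left (le_trans (le_of_eq ?_) (sum_sq_le_nv f)) hC0
  exact Finset.sum_congr rfl fun k _ => (nrm_zero_sq (f k)).symm

/-- the localisation in one chart is bounded -/
theorem nv_loc_le (hp : h.Pos) {κ : Type} [Fintype κ] {j : A.ι} {a : M → Matrix κ B.κ ℂ}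
    (ha : IsAmp A j a) : ∃ C, 0 ≤ C ∧ ∀ u, nv 0 (locC ha u) ≤ C * nr (c1 vol h hp) u := by
  obtain ⟨C, hC0, hC⟩ := exists_upper (H := fun x => (a x)ᴴ * a x) ha.cpt fun k l =>
    (continuousOn_of_smAt (FOp.smAt_matmul (m := fun x => (a x)ᴴ) (fun k l =>
        Complex.conjCLE.contDiff.comp_contDiffOn (ha.sm l k)) ha.sm k l)).mono ha.sub
  obtain ⟨c, hc0, hc⟩ := exists_lower ha.cpt (fun k l =>
    (continuousOn_of_smAt (h.sm j k l)).mono ha.sub) fun x hx => hp j x (ha.sub hx)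
  have hD : 0 ≤ C / c := div_nonneg hC0 hc0.le
  refine ⟨Fintype.card κ * Real.sqrt (C / c), by positivity, fun u => ?_⟩
  have hk : ∀ k, nrm 0 (locC ha u k) ≤ Real.sqrt (C / c) * nr (c1 vol h hp) u := by
    intro k
    refine (abs_le_of_sq_le_sq' ?_ (mul_nonneg (Real.sqrt_nonneg _)
      (X277.AN.Horm.nrm_nonneg _ _))).2
    have e0 : locC ha u k = loc A j a (u.1.1 j) k := rfl
    rw [mul_pow, Real.sq_sqrt hD, nrm_c1_sq, e0, nrm_zero_sq, loc_eq ha (u.1.2.1 j), l2_perz,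
      ← setIntegral_eq_integral_of_forall_compl_eq_zero (s := Ui A j) fun y hy => by
        rw [C1d194.rd_off hy, norm_zero, sq, mul_zero]]
    set G : M → ℝ := fun x => (vol.w j x)⁻¹ * ‖(a x *ᵥ u.1.1 j x) k‖ ^ 2 with hG
    have hGc : Continuous G := by
      refine ContinuousOn.continuous_of_tsupport_subset ?_ (A.e j).open_source
        ((closure_minimal (fun x hx => ?_) (isClosed_tsupport a)).trans ha.sub)
      · refine ((continuousOn_of_smAt (vol.sm j)).inv₀ fun x hx => (vol.pos j x hx).ne').mul ?_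
        refine (ContinuousOn.norm (continuousOn_of_smAt (i := j) ?_)).pow 2
        exact ContDiffOn.sum fun l _ => (ha.sm k l).mul (u.1.2.1 j l)
      · by_contra hx'
        refine hx ?_
        simp only [hG]
        rw [amp_zero hx', Matrix.zero_mulVec, Pi.zero_apply, norm_zero, sq, mul_zero, mul_zero]
    have e1 : ∫ y in Ui A j, ‖rd A j (fun x => (a x *ᵥ u.1.1 j x) k) y‖ ^ 2 =
        ∫ x in (A.e j).source, G x ∂(vm vol) := by
      rw [setIntegral_vm vol j hGc.aestronglyMeasurable]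
      refine setIntegral_congr_fun (C1d194.isOpen_Ui j).measurableSet fun y hy => ?_
      have h1 := vol.pos j _ (sg_mem hy)
      simp only [smul_eq_mul, hG]
      rw [C1d194.rd_of_mem hy, mul_inv_cancel_left₀ h1.ne']
      rfl
    have h1 : ∫ x in (A.e j).source, pq vol h u.1 x ∂(vm vol) ≤ ∫ x, pq vol h u.1 x ∂(vm vol) :=
      setIntegral_le_integral (integrable_pq1 vol h u)
        (Eventually.of_forall (pq_nonneg vol h _))
    refine le_trans ?_ (mul_le_mul_of_nonneg_left h1 hD)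
    rw [e1, ← integral_const_mul]
    refine integral_mono_of_nonneg ?_ ((integrable_pq1 vol h u).integrableOn.const_mul _) ?_
    · refine (ae_restrict_iff' (A.e j).open_source.measurableSet).2
        (Eventually.of_forall fun x hx => ?_)
      exact mul_nonneg (inv_pos.2 (vol.pos j x hx)).le (sq_nonneg _)
    refine (ae_restrict_iff' (A.e j).open_source.measurableSet).2
        (Eventually.of_forall fun x hxj => ?_)
    show (vol.w j x)⁻¹ * _ ≤ C / c * pq vol h u.1 x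
    rw [pq_eq vol h _ hxj, mul_left_comm]
    refine mul_le_mul_of_nonneg_left ?_ (inv_pos.2 (vol.pos j x hxj)).le
    show _ ≤ C / c * Complex.re (star _ ⬝ᵥ (_ *ᵥ _))
    by_cases hx : x ∈ tsupport a
    · have h2 := hC _ hx (u.1.1 j x)
      have h3 := hc _ hx (u.1.1 j x)
      rw [← Matrix.mulVec_mulVec, Matrix.dotProduct_mulVec, ← Matrix.star_mulVec] at h2
      have h4 : (star (a x *ᵥ u.1.1 j x) ⬝ᵥ
          (a x *ᵥ u.1.1 j x)).re = nsq (a x *ᵥ u.1.1 j x) :=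
        nsq_eq_re _
      have h5 : ‖(a x *ᵥ u.1.1 j x) k‖ ^ 2 ≤
          nsq (a x *ᵥ u.1.1 j x) :=
        Finset.single_le_sum (f := fun k => ‖(a x *ᵥ u.1.1 j x) k‖ ^ 2)
          (fun _ _ => sq_nonneg _) (Finset.mem_univ k)
      rw [h4] at h2
      refine h5.trans (h2.trans ?_)
      rw [div_mul_eq_mul_div, le_div_iff₀ hc0, mul_assoc, mul_comm _ c]
      exact mul_le_mul_of_nonneg_left h3 hC0
    · rw [amp_zero hx, Matrix.zero_mulVec, Pi.zero_apply, norm_zero, sq, mul_zero]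
      exact mul_nonneg hD (Complex.le_def.1 (h.hd_self_nonneg _ hxj)).1
  refine (Finset.sum_le_sum fun k _ => hk k).trans (le_of_eq ?_)
  rw [Finset.sum_const, Finset.card_univ, nsmul_eq_mul, mul_assoc]

end

end Crest.Agent.X261.Hs
end

-- ▼ part X261/Hs/C
section

/-!
# X261 / Hs (helper68): finite rank mollifiers converging to a cut-off function

* `molP_mul` : for a smooth real function `χ` with compact support and two first order operators,
  `MolP` holds with `c` the multiplication by `χ`.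
-/

set_option autoImplicit false
set_option linter.unusedSectionVars false
set_option linter.style.haveILetI false

open Set Filter Topology Complex MeasureTheory
open scoped ContDiff Matrix ComplexConjugate ComplexOrder

namespace Crest.Agent.X261.Hs

open Crest.Agent.R275 Crest.Agent.R275.Geo Crest.Agent.R275.Tor812 Crest.Agent.R275.TorS666
  Crest.Agent.R275.C1d194 Crest.Agent.R275.Pai323 Crest.Agent.R275.Core144
  Crest.Agent.R275.RetC666
open Crest.Agent.R275.SerG398 (lint dens)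
open Crest.Agent.R273.Defs_333 Crest.Agent.R273.Vm_333 Crest.Agent.R273.L2K_774
  Crest.Agent.R273.NormC_505 Crest.Agent.R273.Mol_106 Crest.Agent.R273.TorM_106
open Crest.Agent.R273.StV_37 (IsD tot tot_loc)
open Crest.Agent.T223.Hm (gl ix ix_mem Cs gl_eq gl_sm integrable_of_sm integral_gl)

noncomputable section

section abs

variable {S : Type*} [AddCommGroup S] [Module ℂ S] (c : InnerProductSpace.Core ℂ S)

theorem nr_zero : nr c 0 = 0 := by
  letI : NormedAddCommGroup S := c.toNormedAddCommGroup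
  exact norm_zero (E := S)

theorem nr_nonneg (u : S) : 0 ≤ nr c u := X277.AN.Horm.nrm_nonneg c u

theorem sum_aux {G σ : Type*} [AddCommGroup G] [Fintype σ] (a b : σ → G) (x y : G) :
    ∑ p, a p + x - (∑ p, b p + y) = ∑ p, (a p - b p) + (x - y) := by
  rw [Finset.sum_sub_distrib]
  abel

theorem molP_zero (T Ts : S →ₗ[ℂ] S) : MolP (nr c) c.inner T Ts 0 := by
  refine ⟨fun _ => 0, 0, fun N u => ?_, fun u => ?_, fun N u => ?_, fun u => ?_, fun N u => ?_,
    fun u => ?_, fun N => ⟨0, Fin.elim0, Fin.elim0, fun v => by simp⟩⟩ <;>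
  simp [nr_zero]

theorem molP_add {T Ts c₁ c₂ : S →ₗ[ℂ] S} (h₁ : MolP (nr c) c.inner T Ts c₁)
    (h₂ : MolP (nr c) c.inner T Ts c₂) : MolP (nr c) c.inner T Ts (c₁ + c₂) := by
  obtain ⟨J, C, a1, a2, a3, a4, a5, a6, a7⟩ := h₁
  obtain ⟨J', C', b1, b2, b3, b4, b5, b6, b7⟩ := h₂
  have lim : ∀ {f g k : ℕ → S}, (∀ N, k N = f N + g N) →
      Tendsto (fun N => nr c (f N)) atTop (𝓝 0) → Tendsto (fun N => nr c (g N)) atTop (𝓝 0) →
      Tendsto (fun N => nr c (k N)) atTop (𝓝 0) := by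
    intro f g k hk hf hg
    have h1 := hf.add hg
    rw [add_zero] at h1
    exact squeeze_zero (fun _ => nr_nonneg c _) (fun N => by rw [hk]; exact nrm_add_le c _ _) h1
  have bd : ∀ {f g k u : S}, k = f + g → nr c f ≤ C * nr c u → nr c g ≤ C' * nr c u →
      nr c k ≤ (C + C') * nr c u := by
    intro f g k u hk hf hg
    rw [hk, add_mul]
    exact (nrm_add_le c _ _).trans (add_le_add hf hg)
  refine ⟨fun N => J N + J' N, C + C', fun N u => bd rfl (a1 N u) (b1 N u),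
    fun u => lim (fun N => ?_) (a2 u) (b2 u), fun N u => bd ?_ (a3 N u) (b3 N u),
    fun u => lim (fun N => ?_) (a4 u) (b4 u), fun N u => bd ?_ (a5 N u) (b5 N u),
    fun u => lim (fun N => ?_) (a6 u) (b6 u), fun N => ?_⟩
  iterate 5
    simp only [LinearMap.add_apply, map_add]
    abel
  obtain ⟨m, s, e, hse⟩ := a7 N
  obtain ⟨m', s', e', hse'⟩ := b7 N
  refine ⟨m + m', Fin.append s s', Fin.append e e', fun v => ?_⟩
  rw [Fin.sum_univ_add, LinearMap.add_apply, hse, hse']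
  simp only [Fin.append_left, Fin.append_right]

theorem molP_sum {T Ts : S →ₗ[ℂ] S} {σ : Type*} (t : Finset σ) {f : σ → S →ₗ[ℂ] S}
    (h : ∀ i ∈ t, MolP (nr c) c.inner T Ts (f i)) : MolP (nr c) c.inner T Ts (∑ i ∈ t, f i) :=
  Finset.sum_induction f (MolP (nr c) c.inner T Ts) (fun _ _ => molP_add c) (molP_zero c T Ts) h

end abs

variable {n : ℕ} {M : Type} [TopologicalSpace M] {A : Atl n M} {B B' : FBun A}

section ops

variable [T2Space M] {κ : Type} [Fintype κ] {j : A.ι}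

theorem fop_extC (T : FOp B B') {b : M → Matrix B.κ κ ℂ} (hb : IsAmp A j b)
    (f : κ → SPer (RI n)) :
    fopC T (extC hb f) = (∑ p, extC (T.amp_a p hb) (pdv κ p f)) + extC (T.amp_b hb) f := by
  apply Subtype.ext
  rw [Submodule.coe_add, Submodule.coe_sum]
  exact T.T_ext hb f

theorem locC_fop (T : FOp B B') {m : M → Matrix κ B'.κ ℂ} (hm : IsAmp A j m) (u : CS B) :
    locC hm (fopC T u) = (∑ p, pdv κ p (locC (T.ampR_a p hm) u)) + locC (T.ampR_b hm) u := by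
  funext k
  rw [Pi.add_apply, Finset.sum_apply]
  exact T.loc_T hm u.1 k

variable (P : Part A) {θ : M → ℝ}

/-- the mollifier of one chart -/
def Jc (hθ : IsAmp A j (fun x => (θ x : ℂ) • (1 : Matrix B.κ B.κ ℂ))) (N : ℕ) :
    CS B →ₗ[ℂ] CS B := extC (IsAmp.chi P B j) ∘ₗ FNv B.κ n N ∘ₗ locC hθ

theorem Jc_apply (hθ : IsAmp A j (fun x => (θ x : ℂ) • (1 : Matrix B.κ B.κ ℂ))) (N : ℕ)
    (u : CS B) : Jc P hθ N u = extC (IsAmp.chi P B j) (FNv B.κ n N (locC hθ u)) := rfl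

theorem extC_locC (hθ : IsAmp A j (fun x => (θ x : ℂ) • (1 : Matrix B.κ B.κ ℂ)))
    (h1 : ∀ x, P.χ j x * θ x = θ x) (hs : A.Sm fun x => (θ x : ℂ))
    (h0 : ∀ x ∉ (A.e j).source, θ x = 0) (u : CS B) :
    extC (IsAmp.chi P B j) (locC hθ u) = mulC B hs u := by
  apply Subtype.ext
  apply Subtype.ext
  funext i x
  rw [mulC_apply]
  show ext B j (P.chi B.κ j) (loc A j _ (u.1.1 j)) i x = _
  by_cases hi : x ∈ (A.e i).source
  · by_cases hj : x ∈ (A.e j).source
    · rw [ext_of_mem B j hi hj, u.1.2.2.2 i j x ⟨hi, hj⟩, ← Matrix.mulVec_smul]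
      congr 1
      have e1 : (fun l => loc A j (fun x => (θ x : ℂ) • (1 : Matrix B.κ B.κ ℂ)) (u.1.1 j) l
          (rc (A.e j x))) = (θ x : ℂ) • u.1.1 j x := by
        funext l
        rw [loc_apply_rc hθ (u.1.2.1 j) l hj, Matrix.smul_mulVec, Matrix.one_mulVec]
      rw [e1, Part.chi, Matrix.smul_mulVec, Matrix.one_mulVec, smul_smul, ← Complex.ofReal_mul, h1]
    · rw [ext_off' B j hj, h0 x hj, Complex.ofReal_zero, zero_smul]
  · rw [ext_off B j hi, u.1.2.2.1 i x hi, smul_zero]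

theorem comm_Jc (T : FOp B B) (hθ : IsAmp A j (fun x => (θ x : ℂ) • (1 : Matrix B.κ B.κ ℂ)))
    (h1 : ∀ x, P.χ j x * θ x = θ x) (N : ℕ) (u : CS B) :
    fopC T (Jc P hθ N u) - Jc P hθ N (fopC T u) =
      (∑ p, (extC (IsAmp.chi P B j)
          (mulS (ampT (T.ampR_a p (IsAmp.chi P B j))) (pdv B.κ p (FNv B.κ n N (locC hθ u))) -
          FNv B.κ n N (pdv B.κ p (mulS (ampT (T.ampR_a p (IsAmp.chi P B j))) (locC hθ u)))) -
        extC (T.amp_a p (IsAmp.chi P B j))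
          (mulS (ampT (IsAmp.chi P B j)) (pdv B.κ p (FNv B.κ n N (locC hθ u))) -
          FNv B.κ n N (pdv B.κ p (mulS (ampT (IsAmp.chi P B j)) (locC hθ u)))))) +
      (extC (T.amp_b (IsAmp.chi P B j)) (FNv B.κ n N (locC hθ u)) -
        extC (IsAmp.chi P B j) (FNv B.κ n N (locC (T.ampR_b hθ) u))) := by
  have hcolC : ∀ x, ((P.χ j x : ℝ) : ℂ) * ((θ x : ℝ) : ℂ) = ((θ x : ℝ) : ℂ) := by
    intro x; rw [← ofReal_mul, h1]
  set g := locC hθ u with hg
  have hX : mulS (ampT (IsAmp.chi P B j)) g = g := by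
    show mulS _ (loc A j _ (u.1.1 j)) = loc A j _ (u.1.1 j)
    rw [mulS_loc (IsAmp.chi P B j) hθ (u.1.2.1 j)]
    congr 1
    funext x
    simp only [Part.chi, Matrix.smul_mul, Matrix.one_mul, smul_smul]
    rw [hcolC]
  have hC : ∀ p, mulS (ampT (T.ampR_a p (IsAmp.chi P B j))) g = locC (T.ampR_a p hθ) u := by
    intro p
    show mulS _ (loc A j _ (u.1.1 j)) = loc A j _ (u.1.1 j)
    rw [mulS_loc (T.ampR_a p (IsAmp.chi P B j)) hθ (u.1.2.1 j)]
    congr 1
    funext x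
    simp only [Part.chi, Matrix.smul_mul, Matrix.one_mul, Matrix.mul_smul,
      Matrix.mul_one, smul_smul]
    rw [mul_comm, hcolC]
  have hE : ∀ p (f : B.κ → SPer (RI n)),
      extC (IsAmp.chi P B j) (mulS (ampT (T.ampR_a p (IsAmp.chi P B j))) f) =
      extC (T.amp_a p (IsAmp.chi P B j)) (mulS (ampT (IsAmp.chi P B j)) f) := by
    intro p f
    apply Subtype.ext
    apply Subtype.ext
    show ext B j _ (mulS _ f) = ext B j _ (mulS _ f)
    rw [ext_mulS, ext_mulS]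
    congr 1
    funext x
    simp only [Part.chi, Matrix.smul_mul, Matrix.one_mul, Matrix.mul_smul, Matrix.mul_one]
  rw [Jc_apply, Jc_apply, fop_extC, locC_fop, map_add, map_add, map_sum, map_sum, ← hg]
  simp only [map_sub, hE, hX, hC, pdv_FNv, sub_sub_sub_cancel_left]
  exact sum_aux (G := CS B) (σ := RI n) _ _ _ _

end ops

variable [Countable A.ι] [T2Space M] [MeasurableSpace M] [BorelSpace M] (P : Part A)
  (vol : HM (KB A)⁻¹) (h : HDen B) (hp : h.Pos) {j : A.ι} {θ : M → ℝ}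

theorem comm_Jc_le (T : FOp B B) (hθ : IsAmp A j (fun x => (θ x : ℂ) • (1 : Matrix B.κ B.κ ℂ)))
    (h1 : ∀ x, P.χ j x * θ x = θ x) : ∃ C, 0 ≤ C ∧ ∀ N u,
      nr (c1 vol h hp) (fopC T (Jc P hθ N u) - Jc P hθ N (fopC T u)) ≤ C * nr (c1 vol h hp) u := by
  obtain ⟨C1, h10, h1'⟩ := nrm_ext_le vol h hp (IsAmp.chi P B j)
  choose C2 h20 h2 using fun p => nrm_ext_le vol h hp (T.amp_a p (IsAmp.chi P B j))
  obtain ⟨C3, h30, h3⟩ := nrm_ext_le vol h hp (T.amp_b (IsAmp.chi P B j))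
  obtain ⟨C4, h40, h4⟩ := nv_loc_le vol h hp (T.ampR_b hθ)
  obtain ⟨C5, h50, h5⟩ := nv_loc_le vol h hp hθ
  choose D1 d10 d1 using fun p : RI n => nv_commD_le (ampT (T.ampR_a p (IsAmp.chi P B j))) p
  choose D2 d20 d2 using fun p : RI n => nv_commD_le (ampT (IsAmp.chi P B j)) p
  refine ⟨(∑ p, (C1 * (D1 p * C5) + C2 p * (D2 p * C5))) + (C3 * C5 + C1 * C4), ?_, fun N u => ?_⟩
  · refine add_nonneg (Finset.sum_nonneg fun p _ => ?_) (by positivity)
    have := d10 p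
    have := d20 p
    have := h20 p
    positivity
  rw [comm_Jc P T hθ h1, add_mul, add_mul, Finset.sum_mul]
  refine (nrm_add_le _ _ _).trans (add_le_add ((nrm_sum_le _ _ _).trans
    (Finset.sum_le_sum fun p _ => ?_)) ((nrm_sub_le _ _ _).trans (add_le_add ?_ ?_)))
  · rw [add_mul, mul_assoc, mul_assoc, mul_assoc, mul_assoc]
    refine (nrm_sub_le _ _ _).trans (add_le_add ((h1' _).trans ?_) ((h2 p _).trans ?_))
    · exact mul_le_mul_of_nonneg_left ((d1 p N _).trans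
        (mul_le_mul_of_nonneg_left (h5 u) (d10 p))) h10
    · exact mul_le_mul_of_nonneg_left ((d2 p N _).trans
        (mul_le_mul_of_nonneg_left (h5 u) (d20 p))) (h20 p)
  · rw [mul_assoc]
    exact (h3 _).trans (mul_le_mul_of_nonneg_left ((nv_FNv_le 0 N _).trans (h5 u)) h30)
  · rw [mul_assoc]
    exact (h1' _).trans (mul_le_mul_of_nonneg_left ((nv_FNv_le 0 N _).trans (h4 u)) h10)

theorem tendsto_extC {κ : Type} [Fintype κ] {b : M → Matrix B.κ κ ℂ} (hb : IsAmp A j b)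
    (g : κ → SPer (RI n)) :
    Tendsto (fun N => nr (c1 vol h hp) (extC hb (FNv κ n N g - g))) atTop (𝓝 0) := by
  obtain ⟨C, -, hC⟩ := nrm_ext_le vol h hp hb
  have h1 := (tendsto_FNv 0 g).const_mul C
  rw [mul_zero] at h1
  exact squeeze_zero (fun _ => nr_nonneg _ _) (fun N => hC _) h1

theorem tendsto_fop_extC (T : FOp B B) {κ : Type} [Fintype κ] {b : M → Matrix B.κ κ ℂ}
    (hb : IsAmp A j b) (g : κ → SPer (RI n)) :
    Tendsto (fun N => nr (c1 vol h hp) (fopC T (extC hb (FNv κ n N g)) - fopC T (extC hb g)))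
      atTop (𝓝 0) := by
  have h1 := (tendsto_finsetSum Finset.univ fun p _ =>
    tendsto_extC vol h hp (T.amp_a p hb) (pdv κ p g)).add (tendsto_extC vol h hp (T.amp_b hb) g)
  rw [Finset.sum_const_zero, add_zero] at h1
  refine squeeze_zero (fun _ => nr_nonneg _ _) (fun N => ?_) h1
  have e : fopC T (extC hb (FNv κ n N g)) - fopC T (extC hb g) =
      fopC T (extC hb (FNv κ n N g - g)) := by rw [map_sub, map_sub]
  rw [e, fop_extC]
  refine (nrm_add_le _ _ _).trans (add_le_add ((nrm_sum_le _ _ _).trans (le_of_eq ?_)) le_rfl)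
  refine Finset.sum_congr rfl fun p _ => ?_
  rw [map_sub (pdv κ p), pdv_FNv]

theorem fc_loc' {κ₁ κ₂ : Type} [Fintype κ₂] {a : M → Matrix κ₁ κ₂ ℂ} (ha : IsAmp A j a)
    {v : M → κ₂ → ℂ} (hv : ∀ l, A.SmAt j (fun x => v x l)) (l : κ₁) (k : RI n → ℤ) :
    fc (loc A j a v l) k = lint A j (fun x => ch (-k) (rc (A.e j x)) * (a x *ᵥ v x) l) := by
  have h1 : fc (loc A j a v l) k = SerG398.ip (chS (-k)) (loc A j a v l) := by
    have h2 := TorE812.ip_chS (loc A j a v l) (-k)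
    rw [neg_neg] at h2
    rw [← h2, TorE812.ip_comm]
    rfl
  rw [h1, C1d194.loc_eq ha hv, SerG398.ip_perz]
  unfold SerG398.lint
  congr 1
  funext x
  by_cases hx : x ∈ Ui A j
  · rw [C1d194.rd_of_mem hx, C1d194.rd_of_mem hx, (A.e j).right_inv hx, rc_cc]
    rfl
  · rw [C1d194.rd_off hx, C1d194.rd_off hx, mul_zero]

include hp in
theorem amp_rep' (hθ : IsAmp A j (fun x => (θ x : ℂ) • (1 : Matrix B.κ B.κ ℂ))) :
    IsAmp A j (fun x => ((θ x : ℂ) • (1 : Matrix B.κ B.κ ℂ)) * (h.H j x)⁻¹) :=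
  isAmp_mul_right hθ fun k l => smAt_inv (h.sm j) (fun x hx => (hp j x hx).det_pos.ne') k l

include P in
theorem ip_rep' (hθ : IsAmp A j (fun x => (θ x : ℂ) • (1 : Matrix B.κ B.κ ℂ))) (l : B.κ)
    (k : RI n → ℤ) (v : CS B) :
    (c1 vol h hp).inner (extC (amp_rep' h hp hθ) (Pi.single l (chS k))) v =
      fc (locC hθ v l) k := by
  have ha := amp_rep' h hp hθ
  have hr : (extC ha (Pi.single l (chS k))).1.1 = ext B j (fun x => ((θ x : ℂ) •
      (1 : Matrix B.κ B.κ ℂ)) * (h.H j x)⁻¹) (Pi.single l (chS k)) := extS_coe B j ha _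
  generalize extC ha (Pi.single l (chS k)) = r at hr
  have e0 : locC hθ v l = loc A j _ (v.1.1 j) l := rfl
  have hoff : ∀ i, ∀ x ∉ tsupport (fun x => ((θ x : ℂ) • (1 : Matrix B.κ B.κ ℂ)) * (h.H j x)⁻¹),
      h.hd r.1.1 v.1.1 i x = 0 := fun i x hx => by
    have h0 : r.1.1 i x = 0 := by rw [hr]; exact ext_zero_off B j hx _
    show star (r.1.1 i x) ⬝ᵥ _ = 0
    rw [h0, star_zero, zero_dotProduct]
  rw [c1_inner, e0, fc_loc' hθ (v.1.2.1 j)]
  refine ((integral_gl (vol := vol) P (hd_isD h r.1 v.1) ha.cpt (fun i x _ hx => hoff i x hx)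
    (Finset.Subset.refl _)).2.trans
    (tot_loc P (hd_isD h r.1 v.1) ha.cpt ha.sub (Finset.Subset.refl _) hoff)).trans ?_
  refine lint_congr fun x hx => ?_
  have hH := (hp j x hx)
  have hdet : IsUnit (h.H j x).det := isUnit_iff_ne_zero.2 hH.det_pos.ne'
  have hsrc : r.1.1 j x = (((θ x : ℂ) • (1 : Matrix B.κ B.κ ℂ)) * (h.H j x)⁻¹) *ᵥ
      Pi.single l (ch k (rc (A.e j x))) := by
    rw [hr, ext_self B j hx]
    congr 1
    funext m
    by_cases hm : m = l
    · subst hm; simp only [Pi.single_eq_same]; rfl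
    · simp only [Pi.single_eq_of_ne hm]; rfl
  show star (r.1.1 j x) ⬝ᵥ (h.H j x *ᵥ v.1.1 j x) = _
  rw [hsrc, Matrix.star_mulVec, Matrix.conjTranspose_mul, Matrix.conjTranspose_nonsing_inv,
    hH.isHermitian.eq, Matrix.dotProduct_mulVec, Matrix.vecMul_vecMul]
  have h2 : ((θ x : ℂ) • (1 : Matrix B.κ B.κ ℂ))ᴴ = (θ x : ℂ) • (1 : Matrix B.κ B.κ ℂ) := by
    simp [Matrix.conjTranspose_smul]
  have h3 : (h.H j x)⁻¹ * ((θ x : ℂ) • (1 : Matrix B.κ B.κ ℂ))ᴴ * h.H j x =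
      (θ x : ℂ) • (1 : Matrix B.κ B.κ ℂ) := by
    rw [h2]
    simp only [Matrix.mul_smul, Matrix.mul_one, Matrix.smul_mul]
    rw [Matrix.nonsing_inv_mul _ hdet]
  rw [h3, ← Matrix.dotProduct_mulVec]
  have h4 : star (Pi.single l (ch k (rc (A.e j x))) : B.κ → ℂ) =
      Pi.single l (ch (-k) (rc (A.e j x))) := by
    rw [← conj_ch]
    funext m
    by_cases hm : m = l
    · subst hm; simp
    · simp [hm]
  rw [h4, single_dotProduct]

theorem Jc_finite (hθ : IsAmp A j (fun x => (θ x : ℂ) • (1 : Matrix B.κ B.κ ℂ))) (N : ℕ) :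
    ∃ (m : ℕ) (s e : Fin m → CS B), ∀ v,
      Jc P hθ N v = ∑ α, (c1 vol h hp).inner (s α) v • e α := by
  let X := B.κ × (SN (d := RI n) N)
  let E : X ≃ Fin (Fintype.card X) := Fintype.equivFin X
  let s : X → CS B := fun a => extC (amp_rep' h hp hθ) (Pi.single a.1 (chS a.2.1))
  let e : X → CS B := fun a => (mN N a.2.1 : ℂ) • extC (IsAmp.chi P B j) (Pi.single a.1 (chS a.2.1))
  refine ⟨Fintype.card X, fun α => s (E.symm α), fun α => e (E.symm α), fun v => ?_⟩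
  rw [Equiv.sum_comp E.symm (fun a : X => (c1 vol h hp).inner (s a) v • e a),
    Fintype.sum_prod_type, Jc_apply, FNv_eq_sum, map_sum]
  refine Finset.sum_congr rfl fun l _ => ?_
  rw [map_sum, ← Finset.sum_coe_sort (SN N)]
  refine Finset.sum_congr rfl fun k _ => ?_
  simp only [s, e]
  rw [ip_rep' P vol h hp hθ, map_smul, mul_comm, mul_smul]
  congr 3
  congr!

theorem molP_chart (T Ts : FOp B B)
    (hθ : IsAmp A j (fun x => (θ x : ℂ) • (1 : Matrix B.κ B.κ ℂ)))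
    (h1 : ∀ x, P.χ j x * θ x = θ x) (hs : A.Sm fun x => (θ x : ℂ))
    (h0 : ∀ x ∉ (A.e j).source, θ x = 0) :
    MolP (nr (c1 vol h hp)) (c1 vol h hp).inner (fopC T) (fopC Ts) (mulC B hs) := by
  obtain ⟨C1, h10, h1'⟩ := nrm_ext_le vol h hp (IsAmp.chi P B j)
  obtain ⟨C5, h50, h5⟩ := nv_loc_le vol h hp hθ
  obtain ⟨C2, h20, h2⟩ := comm_Jc_le P vol h hp T hθ h1
  obtain ⟨C3, h30, h3⟩ := comm_Jc_le P vol h hp Ts hθ h1
  have bd : ∀ {a C : ℝ} {u : CS B}, a ≤ C * nr (c1 vol h hp) u → C ≤ C1 * C5 + C2 + C3 →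
      a ≤ (C1 * C5 + C2 + C3) * nr (c1 vol h hp) u := fun ha hC =>
    ha.trans (mul_le_mul_of_nonneg_right hC (nr_nonneg _ _))
  have h15 : 0 ≤ C1 * C5 := mul_nonneg h10 h50
  refine ⟨Jc P hθ, C1 * C5 + C2 + C3, fun N u => bd (C := C1 * C5) ?_ (by linarith), fun u => ?_,
    fun N u => bd (h2 N u) (by linarith), fun u => ?_, fun N u => bd (h3 N u) (by linarith),
    fun u => ?_, Jc_finite P vol h hp hθ⟩
  · rw [mul_assoc]
    exact (h1' _).trans (mul_le_mul_of_nonneg_left ((nv_FNv_le 0 N _).trans (h5 u)) h10)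
  · refine (tendsto_extC vol h hp (IsAmp.chi P B j) (locC hθ u)).congr fun N => ?_
    rw [map_sub, extC_locC P hθ h1 hs h0, Jc_apply]
  · refine (tendsto_fop_extC vol h hp T (IsAmp.chi P B j) (locC hθ u)).congr fun N => ?_
    rw [extC_locC P hθ h1 hs h0, Jc_apply]
  · refine (tendsto_fop_extC vol h hp Ts (IsAmp.chi P B j) (locC hθ u)).congr fun N => ?_
    rw [extC_locC P hθ h1 hs h0, Jc_apply]

include P in
/-- **finite rank mollifiers** for the multiplication by a cut-off function -/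
theorem molP_mul (T Ts : FOp B B) {χ : M → ℝ} (hχ : A.Sm χ) (hc : HasCompactSupport χ)
    (hs : A.Sm fun x => (χ x : ℂ)) :
    MolP (nr (c1 vol h hp)) (c1 vol h hp).inner (fopC T) (fopC Ts) (mulC B hs) := by
  have hK : IsCompact (tsupport χ) := hc
  have sm : ∀ j i, A.SmAt i fun x => P.ψ j x * χ x := fun j i => (P.ψ_sm j i).mul (hχ i)
  have smc : ∀ j, A.Sm fun x => ((P.ψ j x * χ x : ℝ) : ℂ) := fun j i => smAt_ofReal (sm j i)
  have hsub : ∀ j, tsupport (fun x => P.ψ j x * χ x) ⊆ tsupport (P.ψ j) := fun j =>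
    tsupport_mul_subset_left
  have e1 : mulC B hs = ∑ j ∈ Fn P hK, mulC B (smc j) := by
    ext u i x k
    rw [LinearMap.sum_apply, Submodule.coe_sum, Submodule.coe_sum, Finset.sum_apply,
      Finset.sum_apply, mulC_apply]
    simp only [mulC_apply]
    rw [← Finset.sum_smul, ← Complex.ofReal_sum, ← Finset.sum_mul]
    by_cases hx : x ∈ tsupport χ
    · rw [sum_psi P hK (Finset.Subset.refl _) hx, one_mul]
    · rw [image_eq_zero_of_notMem_tsupport hx, mul_zero]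
  rw [e1]
  refine molP_sum _ _ fun j _ => molP_chart P vol h hp T Ts
    (isAmp_bump_const (sm j j) ((P.ψ_cpt j).of_isClosed_subset (isClosed_tsupport _) (hsub j))
      ((hsub j).trans ((P.ψ_sub j).trans (P.χ_sub j))) 1) (fun x => ?_) (smc j) fun x hx => ?_
  · rw [← mul_assoc, P.chi_mul_psi]
  · rw [psi_off P hx, zero_mul]

end

end Crest.Agent.X261.Hs
end

-- ▼ part X261/Hs/P
section

/-!
# X261 / Hs (helper68): pointwise algebra of polyvectors

* `cs_psd` : Cauchy-Schwarz; `wedge_le` : `|β ∧ p|² ≤ |β|² |p|²`; `dual_le`;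
* `Cv_rank`, `Cv_g_le`, `contr_le` : `|⟨t, i_γ w⟩|² ≤ a Cv(Θ; w)`.
-/

set_option autoImplicit false
set_option linter.style.haveILetI false

open Complex Matrix
open scoped Matrix ComplexConjugate ComplexOrder

namespace Crest.Agent.X261.Hs

open Crest.Agent.R273.Fock_243 Crest.Agent.R273.Bkn_243 Crest.Agent.R273.Pos_243
open Crest.Agent.T223.Hm (hq)

variable {n : ℕ}

theorem cs_psd {κ : Type} [Fintype κ] {G : Matrix κ κ ℂ} (hG : G.PosSemidef) (p q : κ → ℂ) :
    ‖star p ⬝ᵥ (G *ᵥ q)‖ ^ 2 ≤ (star p ⬝ᵥ (G *ᵥ p)).re * (star q ⬝ᵥ (G *ᵥ q)).re := by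
  have hc : ∀ u w : κ → ℂ, conj (star w ⬝ᵥ (G *ᵥ u)) = star u ⬝ᵥ (G *ᵥ w) := fun u w => by
    rw [← Complex.star_def, ← Matrix.star_dotProduct, Matrix.star_mulVec, hG.1.eq,
      ← Matrix.dotProduct_mulVec]
  letI c : PreInnerProductSpace.Core ℂ (κ → ℂ) :=
    { inner := fun u w => star u ⬝ᵥ (G *ᵥ w)
      conj_inner_symm := hc
      re_inner_nonneg := fun u => (Complex.le_def.1 (hG.dotProduct_mulVec_nonneg u)).1
      add_left := fun u v w => by
        show star (u + v) ⬝ᵥ _ = _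
        rw [star_add, add_dotProduct]
      smul_left := fun u w r => by
        show star (r • u) ⬝ᵥ _ = _
        rw [star_smul, smul_dotProduct]
        rfl }
  have h1 := InnerProductSpace.Core.inner_mul_inner_self_le (𝕜 := ℂ) (F := κ → ℂ) p q
  have h2 : ‖star q ⬝ᵥ (G *ᵥ p)‖ = ‖star p ⬝ᵥ (G *ᵥ q)‖ := by rw [← hc, Complex.norm_conj]
  rw [sq]
  nth_rewrite 2 [← h2]
  exact h1

theorem star_eW' (γ : Fin n → ℂ) (a : FI n → ℂ) : star (eW γ *ᵥ a) = eW (star γ) *ᵥ star a := by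
  rw [star_mulVec']
  unfold eW
  rw [K_map_conj, star_zero]

theorem star_iW' (γ : Fin n → ℂ) (a : FI n → ℂ) : star (iW γ *ᵥ a) = iW (star γ) *ᵥ star a := by
  rw [star_mulVec']
  unfold iW
  rw [K_map_conj, star_zero]

theorem wedge_le {X : Matrix (Fin n) (Fin n) ℂ} (hX : X.PosSemidef) (β : Fin n → ℂ)
    (p : FI n → ℂ) : (star (eW β *ᵥ p) ⬝ᵥ (Gam X *ᵥ (eW β *ᵥ p))).re ≤
      (star β ⬝ᵥ (X *ᵥ β)).re * (star p ⬝ᵥ (Gam X *ᵥ p)).re := by
  have hs : star (Xᵀ *ᵥ star β) = X *ᵥ β := by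
    rw [star_mulVec', star_star]
    congr 1
    exact hX.1
  have h1 : star (eW β *ᵥ p) ⬝ᵥ (Gam X *ᵥ (eW β *ᵥ p)) +
      star (iW (Xᵀ *ᵥ star β) *ᵥ p) ⬝ᵥ (Gam X *ᵥ (iW (Xᵀ *ᵥ star β) *ᵥ p)) =
      (star β ⬝ᵥ (X *ᵥ β)) * (star p ⬝ᵥ (Gam X *ᵥ p)) := by
    rw [star_eW', star_iW', hs, dot_eW, dot_iW, ← dotProduct_add]
    simp only [Matrix.mulVec_mulVec]
    rw [Gam_eW, ← iW_Gam, ← Matrix.add_mulVec, ← mul_assoc, ← mul_assoc, ← add_mul, iW_eW,
      smul_mul_assoc, one_mul, Matrix.smul_mulVec, dotProduct_smul, smul_eq_mul]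
    congr 1
    exact Finset.sum_congr rfl fun j _ => mul_comm _ _
  have h2 := (Complex.le_def.1 ((Gam_posSemidef hX).dotProduct_mulVec_nonneg
    (iW (Xᵀ *ᵥ star β) *ᵥ p))).1
  have h3 := congrArg Complex.re h1
  have h4 := (Complex.le_def.1 (hX.dotProduct_mulVec_nonneg β)).2
  rw [Complex.add_re, Complex.mul_re, ← h4, Complex.zero_im, zero_mul, sub_zero] at h3
  rw [Complex.zero_re] at h2
  linarith

theorem dual_le {g : Matrix (Fin n) (Fin n) ℂ} (hg : g.PosDef) {α : Fin n → ℂ} {ε : ℝ}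
    (hε : 0 ≤ ε) (h : ∀ v : Fin n → ℂ, ‖∑ a, α a * v a‖ ^ 2 ≤ ε * hq g v) :
    (star (star α) ⬝ᵥ ((gᵀ)⁻¹ *ᵥ star α)).re ≤ ε := by
  have hi := hg.transpose.inv
  have h0 := Complex.le_def.1 (hi.posSemidef.dotProduct_mulVec_nonneg (star α))
  set s := star (star α) ⬝ᵥ ((gᵀ)⁻¹ *ᵥ star α) with hs
  have h1 := h ((gᵀ)⁻¹ *ᵥ star α)
  have e1 : ∑ a, α a * ((gᵀ)⁻¹ *ᵥ star α) a = s := by rw [hs, star_star]; rfl
  have e2 : hq g ((gᵀ)⁻¹ *ᵥ star α) = s.re := by
    unfold hq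
    rw [Matrix.mulVec_mulVec, Matrix.mul_nonsing_inv _
      (isUnit_iff_ne_zero.2 hg.transpose.det_pos.ne'), Matrix.one_mulVec, hs,
      Matrix.star_dotProduct, Complex.star_def, Complex.conj_re]
  have e3 : s.re ≤ ‖s‖ := Complex.re_le_norm s
  rw [e1, e2] at h1
  rw [Complex.zero_re] at h0
  have h2 := pow_le_pow_left₀ h0.1 e3 2
  by_contra hlt
  have h3 : ε < s.re := not_le.1 hlt
  nlinarith

theorem psd_of_hq {th : Matrix (Fin n) (Fin n) ℂ} (hh : th.IsHermitian)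
    (h : ∀ ξ, 0 ≤ hq th ξ) : th.PosSemidef := by
  have h1 : (thᵀ).PosSemidef := by
    refine .of_dotProduct_mulVec_nonneg hh.transpose fun ξ => Complex.le_def.2 ⟨h ξ, ?_⟩
    refine (Complex.conj_eq_iff_im.1 ?_).symm
    rw [← Complex.star_def, ← Matrix.star_dotProduct, Matrix.star_mulVec, hh.transpose.eq,
      ← Matrix.dotProduct_mulVec]
  exact h1.transpose

theorem hq_add (a b : Matrix (Fin n) (Fin n) ℂ) (ξ : Fin n → ℂ) :
    hq (a + b) ξ = hq a ξ + hq b ξ := by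
  unfold hq
  rw [Matrix.transpose_add, Matrix.add_mulVec, dotProduct_add, Complex.add_re]

theorem hq_smul (c : ℝ) (a : Matrix (Fin n) (Fin n) ℂ) (ξ : Fin n → ℂ) :
    hq ((c : ℂ) • a) ξ = c * hq a ξ := by
  unfold hq
  rw [Matrix.transpose_smul, Matrix.smul_mulVec, dotProduct_smul, smul_eq_mul,
    Complex.re_ofReal_mul]

/-- the rank one form `|⟨γ, ξ⟩|²` -/
def rk1 (γ : Fin n → ℂ) : Matrix (Fin n) (Fin n) ℂ := Matrix.of fun l k => conj (γ l) * γ k

theorem rk1_herm (γ : Fin n → ℂ) : (rk1 γ).IsHermitian := by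
  ext a b
  simp [rk1, mul_comm]

theorem hq_rk1 (γ ξ : Fin n → ℂ) : hq (rk1 γ) ξ = ‖star ξ ⬝ᵥ γ‖ ^ 2 := by
  have h1 : star ξ ⬝ᵥ ((rk1 γ)ᵀ *ᵥ ξ) = (star ξ ⬝ᵥ γ) * conj (star ξ ⬝ᵥ γ) := by
    simp only [dotProduct, Matrix.mulVec, rk1, Matrix.transpose_apply, Matrix.of_apply, map_sum,
      map_mul, Pi.star_apply, Complex.star_def, Complex.conj_conj, Finset.sum_mul, Finset.mul_sum]
    rw [Finset.sum_comm]
    exact Finset.sum_congr rfl fun _ _ => Finset.sum_congr rfl fun _ _ => by ring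
  unfold hq
  rw [h1, Complex.mul_conj, Complex.ofReal_re, Complex.normSq_eq_norm_sq]

theorem Cv_add (G : Matrix (FI n) (FI n) ℂ) (a b : Matrix (Fin n) (Fin n) ℂ) (v w : FI n → ℂ) :
    Cv G (a + b) v w = Cv G a v w + Cv G b v w := by
  simp only [Cv, Matrix.add_apply, add_mul, Finset.sum_add_distrib]

theorem Cv_smul' (G : Matrix (FI n) (FI n) ℂ) (c : ℂ) (a : Matrix (Fin n) (Fin n) ℂ)
    (v w : FI n → ℂ) : Cv G (c • a) v w = c * Cv G a v w := by
  simp only [Cv, Matrix.smul_apply, smul_eq_mul, Finset.mul_sum, mul_assoc]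

theorem Cv_rank (G : Matrix (FI n) (FI n) ℂ) (γ : Fin n → ℂ) (w : FI n → ℂ) :
    Cv G (rk1 γ) w w = star (iW (star γ) *ᵥ w) ⬝ᵥ (G *ᵥ (iW (star γ) *ᵥ w)) := by
  rw [star_iW', star_star, iW_eq_sum γ, iW_eq_sum (star γ), Matrix.sum_mulVec, Matrix.sum_mulVec,
    Matrix.mulVec_sum, sum_dotProduct]
  refine Finset.sum_congr rfl fun k _ => ?_
  rw [dotProduct_sum]
  refine Finset.sum_congr rfl fun l _ => ?_
  rw [Matrix.smul_mulVec, Matrix.smul_mulVec, Matrix.mulVec_smul, smul_dotProduct,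
    dotProduct_smul]
  simp only [rk1, Matrix.of_apply, smul_eq_mul, Pi.star_apply, Complex.star_def]
  ring

theorem Cv_g_le {g : Matrix (Fin n) (Fin n) ℂ} (hg : g.PosDef) (w : FI n → ℂ) :
    (Cv (Gam gᵀ) g w w).re ≤ n * (star w ⬝ᵥ (Gam gᵀ *ᵥ w)).re := by
  have hu : IsUnit (gᵀ).det := isUnit_iff_ne_zero.2 hg.transpose.det_pos.ne'
  have h1 : Cv (Gam gᵀ) g w w = ∑ l, star w ⬝ᵥ ((Gam gᵀ * (eW (ep l) * iW (ep l))) *ᵥ w) := by
    unfold Cv
    rw [Finset.sum_comm]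
    refine Finset.sum_congr rfl fun l _ => ?_
    rw [← mul_assoc, Gam_eW, eW_eq_sum (gᵀ *ᵥ ep l), Finset.sum_mul, Finset.sum_mul,
      Matrix.sum_mulVec, dotProduct_sum]
    refine Finset.sum_congr rfl fun k _ => ?_
    rw [dot_iW, smul_mul_assoc, smul_mul_assoc, Matrix.smul_mulVec, dotProduct_smul, smul_eq_mul,
      Matrix.mulVec_mulVec, Matrix.mulVec_mulVec, Matrix.mulVec_single_one]
    rfl
  have h2 : T1 (Gam gᵀ) ((gᵀ)⁻¹)ᵀ (fun k => eW (ep k) *ᵥ w) (fun k => eW (ep k) *ᵥ w) =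
      ∑ l, star w ⬝ᵥ ((Gam gᵀ * (iW (ep l) * eW (ep l))) *ᵥ w) := by
    unfold T1
    refine Finset.sum_congr rfl fun l _ => ?_
    have e1 : Gam gᵀ * iW (ep l) = iW (((gᵀ)⁻¹)ᵀ *ᵥ ep l) * Gam gᵀ := by
      rw [iW_Gam, Matrix.mulVec_mulVec, ← Matrix.transpose_mul, Matrix.nonsing_inv_mul _ hu,
        Matrix.transpose_one, Matrix.one_mulVec]
    rw [← mul_assoc, e1, iW_eq_sum (((gᵀ)⁻¹)ᵀ *ᵥ ep l), Finset.sum_mul, Finset.sum_mul,
      Matrix.sum_mulVec, dotProduct_sum]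
    refine Finset.sum_congr rfl fun k _ => ?_
    rw [star_eW, dot_eW, smul_mul_assoc, smul_mul_assoc, Matrix.smul_mulVec, dotProduct_smul,
      smul_eq_mul, Matrix.mulVec_mulVec, Matrix.mulVec_mulVec, Matrix.mulVec_single_one]
    rfl
  have h3 := (Complex.le_def.1 (T1_nonneg (Gam_posSemidef hg.transpose.posSemidef)
    hg.transpose.inv.posSemidef.transpose (fun k => eW (ep k) *ᵥ w))).1
  have h4 : Cv (Gam gᵀ) g w w + T1 (Gam gᵀ) ((gᵀ)⁻¹)ᵀ (fun k => eW (ep k) *ᵥ w)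
      (fun k => eW (ep k) *ᵥ w) = (n : ℝ) * (star w ⬝ᵥ (Gam gᵀ *ᵥ w)) := by
    rw [h1, h2, ← Finset.sum_add_distrib]
    have e2 : ∀ l : Fin n, star w ⬝ᵥ ((Gam gᵀ * (eW (ep l) * iW (ep l))) *ᵥ w) +
        star w ⬝ᵥ ((Gam gᵀ * (iW (ep l) * eW (ep l))) *ᵥ w) = star w ⬝ᵥ (Gam gᵀ *ᵥ w) := by
      intro l
      rw [← dotProduct_add, ← Matrix.add_mulVec, ← mul_add, add_comm, iW_eW]
      simp [Pi.single_apply]
    simp only [e2]
    simp
  have h5 := congrArg Complex.re h4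
  rw [Complex.add_re, Complex.re_ofReal_mul] at h5
  rw [Complex.zero_re] at h3
  linarith

/-- the pointwise a-priori inequality -/
theorem contr_le {G : Matrix (FI n) (FI n) ℂ} (hG : G.PosSemidef) {th : Matrix (Fin n) (Fin n) ℂ}
    (hh : th.IsHermitian) {γ : Fin n → ℂ} {t : FI n → ℂ} {a : ℝ}
    (h : ∀ ξ, (star t ⬝ᵥ (G *ᵥ t)).re * ‖star ξ ⬝ᵥ γ‖ ^ 2 ≤ a * hq th ξ) (w : FI n → ℂ) :
    ‖star t ⬝ᵥ (G *ᵥ (iW (star γ) *ᵥ w))‖ ^ 2 ≤ a * (Cv G th w w).re := by
  set b := (star t ⬝ᵥ (G *ᵥ t)).re with hb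
  have h1 : ((a : ℂ) • th + ((-b : ℝ) : ℂ) • rk1 γ).PosSemidef := by
    refine psd_of_hq ?_ fun ξ => ?_
    · unfold Matrix.IsHermitian
      rw [Matrix.conjTranspose_add, Matrix.conjTranspose_smul, Matrix.conjTranspose_smul, hh.eq,
        (rk1_herm γ).eq, Complex.star_def, Complex.conj_ofReal, Complex.conj_ofReal]
    · rw [hq_add, hq_smul, hq_smul, hq_rk1]
      linarith [h ξ]
  have h2 := (Complex.le_def.1 (Cv_nonneg hG h1 w)).1
  rw [Cv_add, Cv_smul', Cv_smul', Complex.add_re, Complex.re_ofReal_mul, Complex.re_ofReal_mul,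
    Cv_rank, Complex.zero_re] at h2
  have h3 := cs_psd hG t (iW (star γ) *ᵥ w)
  linarith

end Crest.Agent.X261.Hs
end

-- ▼ part X261/Hs/D

/-!
# X261 / Hs (helper68): test forms on a complete Kaehler manifold

* `cH`, `TC`, `TsC`, `lowC`, `highC` : the pre-Hilbert space of test forms and its operators;
* `hadjC`, `hTTC`, `bknC` : adjointness, `T T = 0`, the Bochner-Kodaira-Nakano identity;
* `cutP` : cut-off operators and mollifiers; `cH_tw` : change of weight.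
-/

set_option autoImplicit false
set_option linter.unusedSectionVars false
set_option linter.style.haveILetI false

open Set Filter Topology Complex MeasureTheory
open scoped ContDiff Matrix ComplexConjugate ComplexOrder

namespace Crest.Agent.X261.Hs

open Crest.Agent.R275 Crest.Agent.R275.Geo Crest.Agent.R275.Pai323 Crest.Agent.R275.Core144
open Crest.Agent.R275.OmT75 (dl)
open Crest.Agent.R273.Defs_333 Crest.Agent.R273.HM_333 Crest.Agent.R273.Kah_333
open Crest.Agent.R273.Vm_333 Crest.Agent.R273.NormC_505 Crest.Agent.R273.Mol_106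
open Crest.Agent.R273.Fock_243 Crest.Agent.R273.Bkn_243 Crest.Agent.R273.Pos_243
open Crest.Agent.R273.LamN127 Crest.Agent.R273.DVec_733 Crest.Agent.R273.DMet_733
open Crest.Agent.R273.DMetB_733 Crest.Agent.R273.BKNa_37 Crest.Agent.R273.BKNb_37
open Crest.Agent.R273.BKNc_37 Crest.Agent.R273.Lim_505
open Crest.Agent.R273.HDN_505 (HB HB_pos)
open Crest.Agent.R273.StV_37 (IsD tot tot_congr db_conj)
open Crest.Agent.T223.Hm (gl ix ix_mem Cs Cut hq gl_eq gl_sm gl_congr integral_gl dd_zero_off)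
open Crest.Agent.X277.AN.Horm (nrm_sq nrm_cs le_of_sq_le_mul)

noncomputable section

section abs

variable {S : Type*} [AddCommGroup S] [Module ℂ S] (c : InnerProductSpace.Core ℂ S)

theorem comm_adj {T Ts χ : S →ₗ[ℂ] S} (hadj : ∀ u w, c.inner (T u) w = c.inner u (Ts w))
    (hχ : ∀ u w, c.inner (χ u) w = c.inner u (χ w)) {η : ℝ} (hη : 0 ≤ η)
    (hT : ∀ u, nr c (T (χ u) - χ (T u)) ≤ η * nr c u) (u : S) :
    nr c (Ts (χ u) - χ (Ts u)) ≤ η * nr c u := by
  letI : NormedAddCommGroup S := c.toNormedAddCommGroup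
  letI : InnerProductSpace ℂ S := .ofCore c.toCore
  have n0 : ∀ u : S, nr c u = ‖u‖ := fun u => rfl
  have i0 : ∀ u w : S, c.inner u w = inner ℂ u w := fun u w => rfl
  simp only [n0, i0] at *
  obtain ⟨z, hz⟩ : ∃ z, z = Ts (χ u) - χ (Ts u) := ⟨_, rfl⟩
  rw [← hz]
  have h1 : inner ℂ z z = -inner ℂ (T (χ z) - χ (T z)) u := by
    have h0 : inner ℂ z z = inner ℂ z (Ts (χ u) - χ (Ts u)) := by rw [← hz]
    rw [h0, inner_sub_right, inner_sub_left, ← hadj z, ← hχ (T z), ← hχ z, ← hadj (χ z)]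
    ring
  refine le_of_sq_le_mul (norm_nonneg _) (mul_nonneg hη (norm_nonneg _)) ?_
  rw [← inner_self_eq_norm_sq (𝕜 := ℂ), h1]
  refine (RCLike.re_le_norm _).trans ?_
  rw [norm_neg]
  refine (norm_inner_le_norm _ _).trans ?_
  have h2 := mul_le_mul_of_nonneg_right (hT z) (norm_nonneg u)
  linarith

theorem inner_self_eq (u : S) : c.inner u u = ((nr c u ^ 2 : ℝ) : ℂ) := by
  letI : NormedAddCommGroup S := c.toNormedAddCommGroup
  letI : InnerProductSpace ℂ S := .ofCore c.toCore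
  rw [Complex.ofReal_pow]
  exact inner_self_eq_norm_sq_to_K (𝕜 := ℂ) u

theorem inner_neg_right' (u w : S) : c.inner u (-w) = -c.inner u w := by
  letI : NormedAddCommGroup S := c.toNormedAddCommGroup
  letI : InnerProductSpace ℂ S := .ofCore c.toCore
  exact inner_neg_right (𝕜 := ℂ) u w

theorem nr_neg (u : S) : nr c (-u) = nr c u := by
  letI : NormedAddCommGroup S := c.toNormedAddCommGroup
  exact norm_neg u

end abs

variable {n : ℕ} {M : Type} [TopologicalSpace M] {A : Atl n M} {N : LB A}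

section low

variable (K : Kah A)

theorem low_cs {v : MV N} (hv : Cs v.1) : low K N v ∈ CS (BN N) := by
  obtain ⟨C, hC, h0⟩ := hv
  refine ⟨C, hC, fun i x hx => ?_⟩
  rw [low_apply, h0 i x hx, Matrix.mulVec_zero, iB_zero]

/-- the test form of a test polyvector -/
def lowC (v : MV N) (hv : Cs v.1) : CS (BN N) := ⟨low K N v, low_cs K hv⟩

/-- the polyvector of a test form -/
def highC (u : CS (BN N)) : MV N := (low K N).symm u.1

theorem highC_cs (u : CS (BN N)) : Cs (highC K u).1 := by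
  obtain ⟨C, hC, h0⟩ := u.2
  refine ⟨C, hC, fun i x hx => ?_⟩
  rw [highC, low_symm_apply, h0 i x hx, oB_zero, Matrix.mulVec_zero]

theorem lowC_highC (u : CS (BN N)) : lowC K (highC K u) (highC_cs K u) = u :=
  Subtype.ext ((low K N).apply_symm_apply u.1)

theorem highC_lowC (v : MV N) (hv : Cs v.1) : highC K (lowC K v hv) = v :=
  (low K N).symm_apply_apply v

theorem exists_low (u : CS (BN N)) : ∃ (v : MV N) (hv : Cs v.1), u = lowC K v hv :=
  ⟨_, _, (lowC_highC K u).symm⟩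

variable [T2Space M] (h : HM ((KB A)⁻¹ * N))

/-- `∂̄` on test forms -/
def TC (N : LB A) : CS (BN N) →ₗ[ℂ] CS (BN N) := fopC (FOp.nab (BN N))

/-- the formal adjoint on test forms -/
def TsC : CS (BN N) →ₗ[ℂ] CS (BN N) := fopC (dsF K h)

theorem TC_coe (u : CS (BN N)) : (TC N u).1 = nabL (BN N) u.1 := rfl


theorem hTTC (u : CS (BN N)) : TC N (TC N u) = 0 := Subtype.ext (nab_nab_BN N u.1)

theorem dlt_eq_high (v : MV N) (hv : Cs v.1) : dlt h v = highC K (-TsC K h (lowC K v hv)) := by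
  have h1 : (TsC K h (lowC K v hv)).1 = -(low K N (dlt h v)) := dsL_low K h v
  rw [highC, Submodule.coe_neg, h1, neg_neg, LinearEquiv.symm_apply_apply]

include K in
theorem cs_dlt {v : MV N} (hv : Cs v.1) : Cs (dlt h v).1 := by
  rw [dlt_eq_high K h v hv]
  exact highC_cs K _

theorem TsC_low (v : MV N) (hv : Cs v.1) :
    TsC K h (lowC K v hv) = -lowC K (dlt h v) (cs_dlt K h hv) := Subtype.ext (dsL_low K h v)

end low

variable [Countable A.ι] (vol : HM (KB A)⁻¹) (K : Kah A) (h : HM ((KB A)⁻¹ * N))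

theorem pf_low (v w : MV N) (x : M) :
    pf vol (HB K h) (low K N v) (low K N w) x = gl vol (inG K h w.1 v.1) x :=
  congrFun (gl_congr fun _ _ hx => HB_hd K h v w hx) x

theorem pf_scale {h h' : HM ((KB A)⁻¹ * N)} {ρ : M → ℝ}
    (hρ : ∀ i, ∀ x ∈ (A.e i).source, h'.w i x = h.w i x * ρ x) (u w : Sec (BN N)) (x : M) :
    pf vol (HB K h') u w x = ρ x * pf vol (HB K h) u w x := by
  rw [pf_eq vol _ u w (ix_mem x), pf_eq vol _ u w (ix_mem x), HB_hd_iB, HB_hd_iB,
    hρ _ x (ix_mem x)]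
  push_cast
  ring

theorem pq_scale {h h' : HM ((KB A)⁻¹ * N)} {ρ : M → ℝ}
    (hρ : ∀ i, ∀ x ∈ (A.e i).source, h'.w i x = h.w i x * ρ x) (u : Sec (BN N)) (x : M) :
    pq vol (HB K h') u x = ρ x * pq vol (HB K h) u x := by
  rw [pq, pf_scale vol K hρ, Complex.re_ofReal_mul, pq]

theorem pf_tw {Φ : M → ℝ} (hΦ : A.Sm Φ) (u w : Sec (BN N)) (x : M) :
    pf vol (HB K (tw h Φ hΦ)) u w x = Real.exp (-Φ x) * pf vol (HB K h) u w x :=
  pf_scale vol K (ρ := fun x => Real.exp (-Φ x)) (fun _ _ _ => rfl) u w x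

theorem pq_tw {Φ : M → ℝ} (hΦ : A.Sm Φ) (u : Sec (BN N)) (x : M) :
    pq vol (HB K (tw h Φ hΦ)) u x = Real.exp (-Φ x) * pq vol (HB K h) u x :=
  pq_scale vol K (ρ := fun x => Real.exp (-Φ x)) (fun _ _ _ => rfl) u x

theorem pf_mul_left {B : FBun A} (h : HDen B) {f : M → ℂ} (hf : A.Sm f) (u : CS B) (w : Sec B)
    (x : M) : pf vol h (mulC B hf u).1 w x = conj (f x) * pf vol h u.1 w x := by
  rw [← pf_conj, pf_mul_right, map_mul, pf_conj]

variable [T2Space M]

/-- the commutator of `∂̄` with a cut-off function -/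
theorem pq_comm_le {χ : M → ℝ} (hs : A.Sm fun x => (χ x : ℂ)) {ε : ℝ} (hε : 0 ≤ ε)
    (hχ : ∀ i, ∀ x ∈ (A.e i).source, ∀ v : Fin n → ℂ,
      ‖∑ a, dl A i a (fun y => (χ y : ℂ)) x * v a‖ ^ 2 ≤ ε * hq (K.g i x) v)
    (u : CS (BN N)) (x : M) :
    pq vol (HB K h) (TC N (mulC _ hs u) - mulC _ hs (TC N u)).1 x ≤ ε * pq vol (HB K h) u.1 x := by
  have hx := ix_mem (A := A) x
  set i := ix A x with hi
  have e1 : oB ((TC N (mulC _ hs u) - mulC _ hs (TC N u)).1.1 i x) =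
      eW (star fun a => dl A i a (fun y => (χ y : ℂ)) x) *ᵥ oB (u.1.1 i x) := by
    have h1 : (TC N (mulC _ hs u) - mulC _ hs (TC N u)).1.1 i x =
        nab (BN N) (fmul (fun x => (χ x : ℂ)) u.1.1) i x - (χ x : ℂ) • nab (BN N) u.1.1 i x := rfl
    rw [h1, nab_fmul (BN N) hs u.1.2 hx, add_sub_cancel_right, cdC, Matrix.sum_mulVec, oB_sum,
      eW_eq_sum, Matrix.sum_mulVec]
    refine Finset.sum_congr rfl fun a _ => ?_
    rw [Matrix.smul_mulVec, Matrix.smul_mulVec, oB_smul, BN_e, ← iB_oB N (u.1.1 i x), kB_iB, one_smul,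
      oB_iB, oB_iB, Pi.star_apply, Complex.star_def, ← db_conj]
    simp only [Complex.conj_ofReal]
  rw [pq_eq vol _ _ hx, pq_eq vol _ _ hx, HB_hd_iB, HB_hd_iB, e1, Complex.re_ofReal_mul,
    Complex.re_ofReal_mul, mul_left_comm ε, mul_left_comm ε]
  refine mul_le_mul_of_nonneg_left (mul_le_mul_of_nonneg_left ?_ (h.pos i x hx).le)
    (inv_pos.2 (vol.pos i x hx)).le
  have hp := (K.pos i x hx).transpose.inv.posSemidef
  refine (wedge_le hp _ _).trans (mul_le_mul_of_nonneg_right (dual_le (K.pos i x hx) hε (hχ i x hx))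
    (Complex.le_def.1 ((Gam_posSemidef hp).dotProduct_mulVec_nonneg _)).1)

variable [MeasurableSpace M] [BorelSpace M]

/-- the inner product of the test forms -/
abbrev cH : InnerProductSpace.Core ℂ (CS (BN N)) := c1 vol (HB K h) (HB_pos K h)

theorem cH_low (v w : MV N) (hv : Cs v.1) (hw : Cs w.1) :
    (cH vol K h).inner (lowC K v hv) (lowC K w hw) =
      ∫ x, gl vol (inG K h w.1 v.1) x ∂(vm vol) := by
  rw [c1_inner]
  exact integral_congr_ae (Eventually.of_forall fun x => pf_low vol K h v w x)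


/-- change of weight -/
theorem cH_tw {Φ Ψ : M → ℝ} (hΦ : A.Sm Φ) (hΨ : A.Sm Ψ)
    (hs : A.Sm fun x => (Real.exp (Φ x - Ψ x) : ℂ)) (u w : CS (BN N)) :
    (cH vol K (tw h Φ hΦ)).inner u (mulC _ hs w) = (cH vol K (tw h Ψ hΨ)).inner u w := by
  rw [c1_inner, c1_inner]
  refine integral_congr_ae (Eventually.of_forall fun x => ?_)
  rw [pf_mul_right, pf_tw, pf_tw, ← mul_assoc, ← Complex.ofReal_mul, ← Real.exp_add]
  congr 3
  ring

theorem sm_expC {Φ Ψ : M → ℝ} (hΦ : A.Sm Φ) (hΨ : A.Sm Ψ) :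
    A.Sm fun x => (Real.exp (Φ x - Ψ x) : ℂ) := fun i =>
  Complex.ofRealCLM.contDiff.comp_contDiffOn
    (Real.contDiff_exp.comp_contDiffOn ((hΦ i).sub (hΨ i)))

theorem nr_tw_mono {Φ Ψ : M → ℝ} (hΦ : A.Sm Φ) (hΨ : A.Sm Ψ) (hle : ∀ x, Ψ x ≤ Φ x)
    (u : CS (BN N)) : nr (cH vol K (tw h Φ hΦ)) u ≤ nr (cH vol K (tw h Ψ hΨ)) u := by
  have h1 := nrm_le_of_pt vol (HB K (tw h Φ hΦ)) (HB_pos K _) wg_one (HB_pos K (tw h Ψ hΨ)) wg_one
    (u := u) (u' := u) zero_le_one fun x => by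
      rw [one_pow, one_mul, one_mul, one_mul, pq_tw, pq_tw]
      exact mul_le_mul_of_nonneg_right (Real.exp_le_exp.2 (neg_le_neg (hle x)))
        (pq_nonneg vol _ _ x)
  rwa [one_mul] at h1

variable (P : Part A)

theorem inner_tot {B : FBun A} (h : HDen B) (hp : h.Pos) (u w : CS B) {C : Set M}
    (hC : IsCompact C) (h0 : ∀ i, ∀ x ∉ C, w.1.1 i x = 0) :
    (c1 vol h hp).inner u w = tot P (Fn P hC) (h.hd u.1.1 w.1.1) := by
  rw [c1_inner]
  refine (integral_gl P (hd_isD h u.1 w.1) hC (fun i x _ hx => ?_) (Finset.Subset.refl _)).2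
  show star _ ⬝ᵥ (_ *ᵥ w.1.1 i x) = 0
  rw [h0 i x hx, Matrix.mulVec_zero, dotProduct_zero]

theorem inner_pair (v : MV N) (hv : Cs v.1) (u : CS (BN N)) {C : Set M} (hC : IsCompact C)
    (h0 : ∀ i, ∀ x ∉ C, u.1.1 i x = 0) :
    (cH vol K h).inner (lowC K v hv) u = pairF (DN N) P (Fn P hC) u.1 (cj h v) := by
  obtain ⟨w, hw, rfl⟩ := exists_low K u
  rw [inner_tot vol P _ _ _ _ hC h0]
  refine tot_congr P _ fun i _ x hx => ?_
  exact (HB_hd K h v w hx).trans (dn_low_cj h K w v i x).symm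

include P in
/-- adjointness -/
theorem hadjC (u w : CS (BN N)) :
    (cH vol K h).inner (TC N u) w = (cH vol K h).inner u (TsC K h w) := by
  obtain ⟨w, hw, rfl⟩ := exists_low K w
  obtain ⟨C, hC, h0⟩ := u.2
  rw [TsC_low]
  refine Eq.trans ?_ (inner_neg_right' (cH vol K h) u _).symm
  rw [← (cH vol K h).conj_inner_symm (TC N u),
    ← (cH vol K h).conj_inner_symm u, inner_pair vol K h P w hw (TC N u) hC
      (nab_offZ hC.isClosed h0), inner_pair vol K h P _ _ u hC h0, TC_coe,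
    pairF_stokes (DN N) P u.1 _ hC (Finset.Subset.refl _) h0, nab_cj, map_neg, map_neg]

theorem inT_off {v : A.ι → M → FI n → ℂ} {i : A.ι} {x : M} (h0 : v i x = 0) :
    inT K h v v i x = 0 := by
  simp [inT, Cv, h0]

theorem inD_off {v : A.ι → M → FI n → ℂ} {C : Set M} (hC : IsCompact C)
    (h0 : ∀ i, ∀ x ∉ C, v i x = 0) {i : A.ι} {x : M} (hx : x ∈ (A.e i).source) (hxC : x ∉ C) :
    inD K h v v i x = 0 := by
  have h1 : ∀ k, dbV v i k x = 0 := fun k => funext fun T =>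
    dd_zero_off (s := I) (a := k) (f := fun y => v i y T) hC
      (fun y hy => by simp only [h0 i y hy, Pi.zero_apply]) hx hxC
  simp [inD, T1, h1]

include P in
theorem integrable_inT (w : MV N) (hw : Cs w.1) :
    Integrable (gl vol (inT K h w.1 w.1)) (vm vol) := by
  obtain ⟨C, hC, h0⟩ := hw
  exact (integral_gl P (inT_isD h (isV w) (isV w)) hC (fun i x _ hx => inT_off K h (h0 i x hx))
    (Finset.Subset.refl _)).1

include P in
theorem integrable_inD (w : MV N) (hw : Cs w.1) :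
    Integrable (gl vol (inD K h w.1 w.1)) (vm vol) := by
  obtain ⟨C, hC, h0⟩ := hw
  exact (integral_gl P (inD_isD h (isV w) (isV w)) hC (fun i x hi hx => inD_off K h hC h0 hi hx)
    (Finset.Subset.refl _)).1

include P in
/-- **the Bochner-Kodaira-Nakano identity** for test forms -/
theorem bknC (w : MV N) (hw : Cs w.1) :
    ∫ x, gl vol (inD K h w.1 w.1) x ∂(vm vol) + ∫ x, gl vol (inT K h w.1 w.1) x ∂(vm vol) =
      ((nr (cH vol K h) (TC N (lowC K w hw)) ^ 2 +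
        nr (cH vol K h) (TsC K h (lowC K w hw)) ^ 2 : ℝ) : ℂ) := by
  obtain ⟨C, hC, h0⟩ := id hw
  have hl : ∀ i, ∀ x ∉ C, (lowC K w hw).1.1 i x = 0 := fun i x hx => by
    show (low K N w).1 i x = 0
    rw [low_apply, h0 i x hx, Matrix.mulVec_zero, iB_zero]
  have hd : ∀ i, ∀ x ∉ C, (lowC K (dlt h w) (cs_dlt K h hw)).1.1 i x = 0 := fun i x hx => by
    have h1 : (cj h (dlt h w)).1 i x = 0 := by
      have h2 : nab _ (cj h w).1 i x = 0 := nab_offZ hC.isClosed (fun i x hx => by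
        rw [cj_apply, h0 i x hx, star_zero, smul_zero, Matrix.mulVec_zero, iB_zero]) i x hx
      have h3 : (nabL _ (cj h w)).1 i x = 0 := h2
      rw [nab_cj, Submodule.coe_neg, Pi.neg_apply, Pi.neg_apply, neg_eq_zero] at h3
      exact h3
    have h4 : (dlt h w).1 i x = 0 := by
      have h5 : dlt h w = (cj h).symm (cj h (dlt h w)) := ((cj h).symm_apply_apply _).symm
      rw [h5]
      show star (((h.w i x : ℂ))⁻¹ • (R273.Berezin_505.Sb ℂ n *ᵥ oB ((cj h (dlt h w)).1 i x))) = 0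
      rw [h1, oB_zero, Matrix.mulVec_zero, smul_zero, star_zero]
    show (low K N (dlt h w)).1 i x = 0
    rw [low_apply, h4, Matrix.mulVec_zero, iB_zero]
  rw [(integral_gl P (inD_isD h (isV w) (isV w)) hC (fun i x hi hx => inD_off K h hC h0 hi hx)
      (Finset.Subset.refl _)).2,
    (integral_gl P (inT_isD h (isV w) (isV w)) hC (fun i x _ hx => inT_off K h (h0 i x hx))
      (Finset.Subset.refl _)).2, bkn P K h (isV w) (isV w) hC (Finset.Subset.refl _) h0,
    Complex.ofReal_add, TsC_low, nr_neg, ← inner_self_eq, ← inner_self_eq,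
    inner_tot vol P _ _ _ (TC N (lowC K w hw)) hC (nab_offZ hC.isClosed hl),
    inner_tot vol P _ _ _ _ hC hd]
  congr 1
  · exact tot_congr P _ fun i _ x hx => (HB_hd_nab K h w w hx).symm
  · refine tot_congr P _ fun i _ x hx => ?_
    refine Eq.trans ?_ (HB_hd K h (dlt h w) (dlt h w) hx).symm
    unfold inG
    rw [dlt_eq_delV h w hx]

include P in
/-- the curvature term is bounded by the energy -/
theorem bknC_le (w : MV N) (hw : Cs w.1) :
    ∫ x, (gl vol (inT K h w.1 w.1) x).re ∂(vm vol) ≤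
      nr (cH vol K h) (TsC K h (lowC K w hw)) ^ 2 + nr (cH vol K h) (TC N (lowC K w hw)) ^ 2 := by
  have h1 := congrArg Complex.re (bknC vol K h P w hw)
  have e1 := integral_re (𝕜 := ℂ) (integrable_inT vol K h P w hw)
  have e2 := integral_re (𝕜 := ℂ) (integrable_inD vol K h P w hw)
  simp only [RCLike.re_to_complex] at e1 e2
  rw [Complex.add_re, Complex.ofReal_re, ← e1, ← e2] at h1
  have h2 : 0 ≤ ∫ x, (gl vol (inD K h w.1 w.1) x).re ∂(vm vol) := integral_nonneg fun x => by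
    show 0 ≤ ((vol.w (ix A x) x)⁻¹ • inD K h w.1 w.1 (ix A x) x).re
    rw [Complex.smul_re, smul_eq_mul]
    exact mul_nonneg (inv_pos.2 (vol.pos _ x (ix_mem x))).le
      (Complex.le_def.1 (R273.BKNd_37.inD_nonneg K h w.1 _ (ix_mem x))).1
  linarith

include P in
/-- **cut-off operators and mollifiers** on a complete manifold -/
theorem cutP (hc : Cut K) (g : CS (BN N)) (q : CS (BN N) → ℝ)
    (hq : ∀ (χ : M → ℝ) (hs : A.Sm fun x => (χ x : ℂ)), (∀ x, 0 ≤ χ x ∧ χ x ≤ 1) →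
      ∀ u, q (mulC _ hs u) ≤ q u) :
    CutP (nr (cH vol K h)) (cH vol K h).inner (TC N) (TsC K h) g q := by
  intro η hη
  obtain ⟨C, hC, h0⟩ := g.2
  obtain ⟨χ, hχ, hcs, h1, h01, hd⟩ := hc C hC (η ^ 2) (by positivity)
  have hs : A.Sm fun x => (χ x : ℂ) := fun i => Complex.ofRealCLM.contDiff.comp_contDiffOn (hχ i)
  have hT : ∀ u, nr (cH vol K h) (TC N (mulC _ hs u) - mulC _ hs (TC N u)) ≤
      η * nr (cH vol K h) u := fun u =>
    nrm_le_of_pt vol _ (HB_pos K h) wg_one (HB_pos K h) wg_one hη.le fun x => by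
      rw [one_mul, one_mul]
      exact pq_comm_le vol K h hs (sq_nonneg η) hd u x
  refine ⟨mulC _ hs, fun u => ?_, fun u => ?_, hq χ hs h01, hT,
    comm_adj _ (hadjC vol K h P) (fun u w => ?_) hη.le hT,
    molP_mul P vol _ (HB_pos K h) _ _ hχ hcs hs⟩
  · rw [c1_inner, c1_inner]
    refine integral_congr_ae (Eventually.of_forall fun x => ?_)
    rw [pf_mul_right]
    by_cases hx : x ∈ C
    · rw [h1 x hx, Complex.ofReal_one, one_mul]
    · rw [pf_zero_left vol _ _ fun i => h0 i x hx, mul_zero]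
  · have h2 := nrm_le_of_pt vol _ (HB_pos K h) wg_one (HB_pos K h) wg_one (u := mulC _ hs u)
      (u' := u) zero_le_one fun x => by
        rw [one_pow, one_mul, one_mul, one_mul, pq_mul, Complex.norm_real,
          Real.norm_of_nonneg (h01 x).1]
        exact mul_le_of_le_one_left (pq_nonneg vol _ _ x) (pow_le_one₀ (h01 x).1 (h01 x).2)
    rwa [one_mul] at h2
  · rw [c1_inner, c1_inner]
    refine integral_congr_ae (Eventually.of_forall fun x => ?_)
    rw [pf_mul_right, pf_mul_left, Complex.conj_ofReal]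

end

end Crest.Agent.X261.Hs
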