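import Crest.Agent.X261.Hc.DemB
import Crest.Agent.X261.Hs.D
import Crest.Agent.X277.AN.HormB
import Crest.Agent.X261.Jet.HLd
import Crest.Agent.X277.AN.LSE

-- ▼ part X261/Hc/Dem
section

/-!
# Row 261, package HC (helper17), file `Dem`: the Hoermander-Demailly theorem with a vanishing
loss of curvature and moving data on a complete Kaehler manifold

* `Cq h K Φ e i x v` : the curvature form of `h e^{-Φ}` plus `e K`;
* `Dat` : the data at one level `ε`;  `Dat.dual` : the dual inequality;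
* `sol_of_dual` : solution from the dual inequality;  `hoer_dem` : the theorem.
-/

set_option autoImplicit false
set_option linter.unusedSectionVars false

open Set Filter Topology Complex Matrix MeasureTheory
open scoped ContDiff Matrix ComplexConjugate ComplexOrder ENNReal

namespace Crest.Agent.X261.Hc

open Crest.Agent.R275 Crest.Agent.R275.Geo Crest.Agent.R275.Core144
open Crest.Agent.R273.Defs_333 Crest.Agent.R273.Kah_333 Crest.Agent.R273.Vm_333
open Crest.Agent.R273.HM_333 (tw)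
open Crest.Agent.T223.Hm Crest.Agent.T223.Hm.H85
open Crest.Agent.X277.AN (qf qf_add)

noncomputable section

variable {n : ℕ} {M : Type} [TopologicalSpace M] {A : Atl n M} {N : LB A}

/-- the curvature form of `h e^{-Φ}` with the loss `e` -/
def Cq {L : LB A} (h : HM L) (K : Kah A) (Φ : M → ℝ) (e : ℝ) (i : A.ι) (x : M)
    (v : Fin n → ℂ) : ℝ :=
  qf (cur h i x) v + qf (hsf A Φ i x) v + e * qf (K.g i x) v

variable [Countable A.ι] [T2Space M] [MeasurableSpace M] [BorelSpace M]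

/-- decreasing weights `Φ`, losses `ε + lam`, data `G` with `|∂̄ G|² ≤ κ`, `∫ κ ≤ D` -/
structure Dat (h : HM ((KB A)⁻¹ * N)) (vol : HM (KB A)⁻¹) (K : Kah A) (ε D : ℝ)
    (Φ lam κ : ℕ → M → ℝ) (G : ℕ → A.ι → M → ℂ) : Prop where
  sm : ∀ μ, A.Sm (Φ μ)
  anti : ∀ x, Antitone fun μ => Φ μ x
  lm : ∀ μ, Measurable (lam μ)
  l0 : ∀ μ x, 0 ≤ lam μ x
  lb : ∃ C, ∀ μ x, lam μ x ≤ C
  lim : ∀ᵐ x ∂(vm vol), Tendsto (fun μ => lam μ x) atTop (𝓝 0)
  pos : ∀ μ i, ∀ x ∈ (A.e i).source, ∀ v, 0 ≤ Cq h K (Φ μ) (ε + lam μ x) i x v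
  Gs : ∀ μ, IsS N (G μ)
  Gc : ∀ μ, Cs (G μ)
  km : ∀ μ, Measurable (κ μ)
  k0 : ∀ μ x, 0 ≤ κ μ x
  kD : ∀ μ, ∫⁻ x, ENNReal.ofReal (κ μ x) ∂(vm vol) ≤ ENNReal.ofReal D
  db : ∀ μ i, ∀ x ∈ (A.e i).source, ∀ v : Fin n → ℂ,
    h.w i x * Real.exp (-Φ μ x) * ‖star v ⬝ᵥ dbs (G μ) i x‖ ^ 2 ≤
      κ μ x * vol.w i x * Cq h K (Φ μ) (ε + lam μ x) i x v

variable {h : HM ((KB A)⁻¹ * N)} {vol : HM (KB A)⁻¹} {K : Kah A}

theorem norm_exp_smul {W : Type*} [NormedAddCommGroup W] [NormedSpace ℂ W] (t : ℝ) (a : W) :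
    ‖((Real.exp (t / 2) : ℝ) : ℂ) • a‖ ^ 2 = Real.exp t * ‖a‖ ^ 2 := by
  rw [norm_smul, mul_pow, Complex.norm_real, Real.norm_eq_abs, sq_abs, sq, ← Real.exp_add,
    add_halves]

theorem Dat.dual {ε D : ℝ} {Φ lam κ : ℕ → M → ℝ} {G : ℕ → A.ι → M → ℂ}
    (H : Dat h vol K ε D Φ lam κ G) (P : Part A) (hcut : Cut K) (hε : 0 ≤ ε) (hD : 0 ≤ D)
    {C0 : ℝ} (hC0 : ∀ x, Φ 0 x ≤ C0) (w : TF N) {q : ℂ}
    (hq : Tendsto (fun μ => ∫ x, conj (r1 h vol (dv h w.1) x) * r1 h vol (G μ) x ∂(vm vol))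
      atTop (𝓝 q)) :
    ‖q‖ ^ 2 ≤ D * (∫ x, Real.exp (Φ 0 x) * ‖r1 h vol (dv h w.1) x‖ ^ 2 ∂(vm vol) +
      ε * (Real.exp C0 * ‖PL h vol K (p1 n) w‖ ^ 2)) := by
  obtain ⟨Λ, hΛ⟩ := H.lb
  set hh : ℕ → HM ((KB A)⁻¹ * N) := fun μ => tw h (Φ μ) (H.sm μ) with hhh
  have hw0 : ∀ μ i y, h.w i y = (hh μ).w i y * Real.exp (Φ μ y) := fun μ i y => by
    show _ = h.w i y * Real.exp (-Φ μ y) * _
    rw [mul_assoc, ← Real.exp_add, neg_add_cancel, Real.exp_zero, mul_one]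
  have hwab : ∀ a b i y, (hh a).w i y = (hh b).w i y * Real.exp (Φ b y - Φ a y) :=
    fun a b i y => by
      show h.w i y * Real.exp (-Φ a y) = h.w i y * Real.exp (-Φ b y) * _
      rw [mul_assoc, ← Real.exp_add]
      congr 2
      ring
  have hmΦ : ∀ μ, Continuous (Φ μ) := fun μ => sm_continuous (H.sm μ)
  have hΦC : ∀ μ x, Φ μ x ≤ C0 := fun μ x => (H.anti x (Nat.zero_le μ)).trans (hC0 x)
  set wv : ℕ → TF N := fun μ => ⟨ef (Φ μ) w.1, isF_ef (H.sm μ) w.2.1, cs_ef _ w.2.2⟩ with hwv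
  set ww : ℕ → Lp (E2 n) 2 (vm vol) := fun μ => PL (hh μ) vol K (p1 n) (wv μ) with hww
  have hwae : ∀ μ, ww μ =ᵐ[vm vol]
      fun x => ((Real.exp (Φ μ x / 2) : ℝ) : ℂ) • r2 h vol K w.1 x := by
    intro μ
    filter_upwards [PL_ae (hh μ) vol K (p1 n) (wv μ)] with x hx
    rw [hww, hx]
    exact r2_ef (hw0 μ) vol K w.1 x
  have hloss := loss_tendsto (fun μ => NN (hh μ) vol K) ww (fun a b hab g hg => by
    have hm : MemLp (fun x => ((Real.exp ((Φ b x - Φ a x) / 2) : ℝ) : ℂ)) ∞ (vm vol) :=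
      memLp_top_real (by fun_prop : Continuous fun x =>
        Real.exp ((Φ b x - Φ a x) / 2)).aestronglyMeasurable (C := 1) fun x => by
          rw [abs_of_pos (Real.exp_pos _), Real.exp_le_one_iff]
          have := H.anti x hab
          simp only at this
          linarith
    refine ⟨mulL _ hm g, (mem_NN _ vol K).2 fun v hv hv' hz => ?_, ?_, ?_⟩
    · have hs : A.Sm fun y => Φ b y - Φ a y := fun i => (H.sm b i).sub (H.sm a i)
      rw [← (mem_NN _ vol K).1 hg (ef (fun y => Φ b y - Φ a y) v) (isF_ef hs hv) (cs_ef _ hv')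
        fun i x hx => by rw [dv_ef (hwab a b), hz i x hx, mul_zero]]
      refine integral_congr_ae ?_
      filter_upwards [mulL_ae _ hm g] with x hx
      rw [hx, r2_ef (hwab a b), inner_smul_left, inner_smul_right, Complex.conj_ofReal]
    · filter_upwards [mulL_ae _ hm g] with x hx
      rw [hx, norm_smul, Complex.norm_real, Real.norm_of_nonneg (Real.exp_pos _).le]
      refine mul_le_of_le_one_left (norm_nonneg _) (Real.exp_le_one_iff.2 ?_)
      have := H.anti x hab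
      simp only at this
      linarith
    · rw [L2.inner_def, L2.inner_def]
      refine integral_congr_ae ?_
      filter_upwards [mulL_ae _ hm g, hwae a, hwae b] with x e1 e2 e3
      rw [e1, e2, e3, inner_smul_left, inner_smul_right, inner_smul_right, Complex.conj_ofReal,
        ← mul_assoc, ← Complex.ofReal_mul, ← Real.exp_add]
      congr 3
      ring) (fun μ => (H.lm μ).aestronglyMeasurable) H.l0 hΛ H.lim
  have hsq : Integrable (fun x => ‖r1 h vol (dv h w.1) x‖ ^ 2) (vm vol) :=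
    (memLp_two_iff_integrable_sq_norm (memLp_dv h vol w.2.1 w.2.2).1).1
      (memLp_dv h vol w.2.1 w.2.2)
  have hbd : ∀ μ x, ‖Real.exp (Φ μ x)‖ ≤ Real.exp C0 := fun μ x => by
    rw [Real.norm_of_nonneg (Real.exp_pos _).le]
    exact Real.exp_le_exp.2 (hΦC μ x)
  have hexp : ∀ μ, AEStronglyMeasurable (fun x => Real.exp (Φ μ x)) (vm vol) := fun μ =>
    (Real.continuous_exp.comp (hmΦ μ)).aestronglyMeasurable
  have hmain : ∀ μ, ‖∫ x, conj (r1 h vol (dv h w.1) x) * r1 h vol (G μ) x ∂(vm vol)‖ ^ 2 ≤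
      D * (∫ x, Real.exp (Φ 0 x) * ‖r1 h vol (dv h w.1) x‖ ^ 2 ∂(vm vol) +
        ε * (Real.exp C0 * ‖PL h vol K (p1 n) w‖ ^ 2) +
        ∫ x, lam μ x * ‖(NN (hh μ) vol K).starProjection (ww μ) x‖ ^ 2 ∂(vm vol)) := by
    intro μ
    have hc : ∀ i, ∀ x ∈ (A.e i).source, ∀ v, qf (cur (hh μ) i x) v +
        (ε + lam μ x) * qf (K.g i x) v = Cq h K (Φ μ) (ε + lam μ x) i x v := fun i x hx v => by
      rw [hhh, cur_tw h (H.sm μ) i hx, qf_add, Cq]
    have h1 := est (hh μ) vol K P hcut (l := fun x => ε + lam μ x) ((H.lm μ).const_add ε)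
      (fun x => add_nonneg hε (H.l0 μ x)) (Λ := ε + Λ) (fun x => by linarith [hΛ μ x])
      (fun i x hx v => by rw [hc i x hx]; exact H.pos μ i x hx v) (H.Gs μ) (H.Gc μ) (H.km μ)
      (H.k0 μ) hD (H.kD μ) (fun i x hx v => by rw [hc i x hx]; exact H.db μ i x hx v) (wv μ)
    have e1 : ∀ x, conj (r1 (hh μ) vol (dv (hh μ) (wv μ).1) x) * r1 (hh μ) vol (G μ) x =
        conj (r1 h vol (dv h w.1) x) * r1 h vol (G μ) x := fun x => by
      rw [r1_chg (hw0 μ) vol (G μ), hwv, r1_dv_ef (hw0 μ), map_mul, Complex.conj_ofReal]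
      ring
    have e2 : ∀ x, ‖r1 (hh μ) vol (dv (hh μ) (wv μ).1) x‖ ^ 2 =
        Real.exp (Φ μ x) * ‖r1 h vol (dv h w.1) x‖ ^ 2 := fun x => by
      rw [hwv, r1_dv_ef (hw0 μ), ← smul_eq_mul, norm_exp_smul]
    simp only [e1, e2] at h1
    refine h1.trans (mul_le_mul_of_nonneg_left ?_ hD)
    set y := (NN (hh μ) vol K).starProjection (ww μ) with hy
    have i1 : Integrable (fun x => ε * ‖y x‖ ^ 2) (vm vol) := (int_sq y).const_mul ε
    have i2 : Integrable (fun x => lam μ x * ‖y x‖ ^ 2) (vm vol) :=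
      int_mul_sq (H.lm μ).aestronglyMeasurable
        (fun x => by rw [abs_of_nonneg (H.l0 μ x)]; exact hΛ μ x) y
    simp only [add_mul]
    rw [integral_add i1 i2, integral_const_mul, ← norm_sq_Lp, ← add_assoc]
    refine add_le_add_left (add_le_add ?_ (mul_le_mul_of_nonneg_left ?_ hε)) _
    · exact integral_mono (hsq.bdd_mul (hexp μ) (Eventually.of_forall (hbd μ)))
        (hsq.bdd_mul (hexp 0) (Eventually.of_forall (hbd 0))) fun x =>
        mul_le_mul_of_nonneg_right (Real.exp_le_exp.2 (H.anti x (Nat.zero_le μ))) (sq_nonneg _)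
    · refine (pow_le_pow_left₀ (norm_nonneg _)
        ((NN (hh μ) vol K).norm_starProjection_apply_le (ww μ)) 2).trans ?_
      rw [norm_sq_Lp, norm_sq_Lp, ← integral_const_mul]
      refine integral_mono_ae (int_sq _) ((int_sq _).const_mul _) ?_
      filter_upwards [hwae μ, PL_ae h vol K (p1 n) w] with x e3 e4
      rw [e3, e4, norm_exp_smul]
      exact mul_le_mul_of_nonneg_right (Real.exp_le_exp.2 (hΦC μ x)) (sq_nonneg _)
  have l2 := (hloss.const_add (∫ x, Real.exp (Φ 0 x) * ‖r1 h vol (dv h w.1) x‖ ^ 2 ∂(vm vol) +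
    ε * (Real.exp C0 * ‖PL h vol K (p1 n) w‖ ^ 2))).const_mul D
  rw [add_zero] at l2
  exact le_of_tendsto_of_tendsto' (hq.norm.pow 2) l2 hmain




end

end Crest.Agent.X261.Hc
end

-- ▼ part X261/Hs/E
section

/-!
# X261 / Hs (helper68): the Hoermander-Demailly inequality for forms of all degrees on a complete
Kaehler manifold, dual form

* `Wts` : decreasing weights with a vanishing loss of curvature; `Wts.equi` : equi-integrability;
* `apriC` : the a-priori inequality; `DatV.dual` : the dual inequality at one level `ε`.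
-/

set_option autoImplicit false
set_option linter.unusedSectionVars false
set_option linter.style.haveILetI false

open Set Filter Topology Complex MeasureTheory
open scoped ContDiff Matrix ComplexConjugate ComplexOrder

namespace Crest.Agent.X261.Hs

open Crest.Agent.R275 Crest.Agent.R275.Geo Crest.Agent.R275.Pai323 Crest.Agent.R275.Core144
open Crest.Agent.R273.Defs_333 Crest.Agent.R273.HM_333 Crest.Agent.R273.Kah_333
open Crest.Agent.R273.Vm_333 Crest.Agent.R273.NormC_505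
open Crest.Agent.R273.Fock_243 Crest.Agent.R273.Bkn_243 Crest.Agent.R273.Pos_243
open Crest.Agent.R273.LamN127 Crest.Agent.R273.DVec_733 Crest.Agent.R273.DMet_733
open Crest.Agent.R273.DMetB_733 Crest.Agent.R273.BKNa_37 Crest.Agent.R273.BKNb_37
open Crest.Agent.R273.BKNc_37 Crest.Agent.R273.Lim_505
open Crest.Agent.R273.HDN_505 (HB HB_pos)
open Crest.Agent.T223.Hm (gl ix ix_mem Cs Cut hq gl_eq gl_sm gl_congr integral_gl)
open Crest.Agent.X261.Hc (Cq hq_eq_qf)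
open Crest.Agent.X277.AN.Horm (cs_meas)

noncomputable section

variable {n : ℕ} {M : Type} [TopologicalSpace M] {A : Atl n M} {N : LB A}
variable [Countable A.ι] [T2Space M] [MeasurableSpace M] [BorelSpace M]

/-! ### seminorms with a measurable weight -/

section semi

variable {B : FBun A} (vol : HM (KB A)⁻¹) (h : HDen B) {ρ : M → ℝ}

theorem integrable_pf0 (hm : Measurable ρ) (h0 : ∀ x, 0 ≤ ρ x)
    (hb : ∀ K, IsCompact K → ∃ C, ∀ x ∈ K, ρ x ≤ C) (u w : CS B) :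
    Integrable (fun x => (ρ x : ℂ) * pf vol h u.1 w.1 x) (vm vol) := by
  obtain ⟨K, hK, hz⟩ := u.2
  have := integrable_wt vol hm h0 hb (pf_cont vol h u.1 w.1) hK
    fun x hx => pf_zero_left vol h _ fun i => hz i x hx
  simpa only [Complex.real_smul] using this

/-- the semi inner product of a nonnegative weight -/
@[reducible] def pcore (hm : Measurable ρ) (h0 : ∀ x, 0 ≤ ρ x)
    (hb : ∀ K, IsCompact K → ∃ C, ∀ x ∈ K, ρ x ≤ C) : PreInnerProductSpace.Core ℂ (CS B) where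
  inner u w := ipw vol h ρ u w
  conj_inner_symm u w := by
    show conj (ipw vol h ρ w u) = ipw vol h ρ u w
    rw [ipw, ipw, ← integral_conj]
    refine integral_congr_ae (Eventually.of_forall fun x => ?_)
    simp only [map_mul, Complex.conj_ofReal, pf_conj]
  re_inner_nonneg u := by
    show 0 ≤ (ipw vol h ρ u u).re
    rw [ipw_self, Complex.ofReal_re]
    exact integral_nonneg fun x => mul_nonneg (h0 x) (pq_nonneg vol h _ x)
  add_left u u' w := by
    show ipw vol h ρ (u + u') w = ipw vol h ρ u w + ipw vol h ρ u' w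
    rw [ipw, ipw, ipw, ← integral_add (integrable_pf0 vol h hm h0 hb u w)
      (integrable_pf0 vol h hm h0 hb u' w)]
    refine integral_congr_ae (Eventually.of_forall fun x => ?_)
    simp only [Submodule.coe_add, pf_add_left, mul_add]
  smul_left u w c := by
    show ipw vol h ρ (c • u) w = conj c * ipw vol h ρ u w
    rw [ipw, ipw, ← integral_const_mul]
    refine integral_congr_ae (Eventually.of_forall fun x => ?_)
    simp only [Submodule.coe_smul, pf_smul_left]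
    ring

/-- the seminorm of a nonnegative weight -/
def qw (ρ : M → ℝ) (u : CS B) : ℝ := Real.sqrt (∫ x, ρ x * pq vol h u.1 x ∂(vm vol))

theorem qw_sq (h0 : ∀ x, 0 ≤ ρ x) (u : CS B) :
    qw vol h ρ u ^ 2 = ∫ x, ρ x * pq vol h u.1 x ∂(vm vol) :=
  Real.sq_sqrt (integral_nonneg fun x => mul_nonneg (h0 x) (pq_nonneg vol h _ x))

theorem qw_abs_sub (hm : Measurable ρ) (h0 : ∀ x, 0 ≤ ρ x)
    (hb : ∀ K, IsCompact K → ∃ C, ∀ x ∈ K, ρ x ≤ C) (u v : CS B) :
    |qw vol h ρ u - qw vol h ρ v| ≤ qw vol h ρ (u - v) := by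
  letI : PreInnerProductSpace.Core ℂ (CS B) := pcore vol h hm h0 hb
  letI : SeminormedAddCommGroup (CS B) :=
    InnerProductSpace.Core.toSeminormedAddCommGroup (𝕜 := ℂ) (F := CS B)
  have e : ∀ y : CS B, qw vol h ρ y = ‖y‖ := fun y => by
    show _ = Real.sqrt (ipw vol h ρ y y).re
    rw [ipw_self, Complex.ofReal_re, qw]
  rw [e, e, e]
  exact abs_norm_sub_norm_le u v

theorem qw_le (hp : h.Pos) {C : ℝ} (hC : 0 ≤ C) (h0 : ∀ x, 0 ≤ ρ x) (hle : ∀ x, ρ x ≤ C)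
    (u : CS B) : qw vol h ρ u ≤ Real.sqrt C * nr (c1 vol h hp) u := by
  refine Real.sqrt_le_iff.2 ⟨mul_nonneg (Real.sqrt_nonneg _) (nr_nonneg _ _), ?_⟩
  rw [mul_pow, Real.sq_sqrt hC, nrm_c1_sq, ← integral_const_mul]
  exact integral_mono_of_nonneg
    (Eventually.of_forall fun x => mul_nonneg (h0 x) (pq_nonneg vol h _ x))
    ((integrable_pq1 vol h u).const_mul C)
    (Eventually.of_forall fun x => mul_le_mul_of_nonneg_right (hle x) (pq_nonneg vol h _ x))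

theorem qw_mul_le (hm : Measurable ρ) (h0 : ∀ x, 0 ≤ ρ x)
    (hb : ∀ K, IsCompact K → ∃ C, ∀ x ∈ K, ρ x ≤ C) {χ : M → ℝ} (hs : A.Sm fun x => (χ x : ℂ))
    (h01 : ∀ x, 0 ≤ χ x ∧ χ x ≤ 1) (u : CS B) : qw vol h ρ (mulC B hs u) ≤ qw vol h ρ u := by
  refine Real.sqrt_le_sqrt (integral_mono (integrable_pq vol h hm h0 hb _)
    (integrable_pq vol h hm h0 hb _) fun x => mul_le_mul_of_nonneg_left ?_ (h0 x))
  rw [pq_mul, Complex.norm_real, Real.norm_of_nonneg (h01 x).1]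
  exact mul_le_of_le_one_left (pq_nonneg vol _ _ x) (pow_le_one₀ (h01 x).1 (h01 x).2)

end semi

/-! ### the a-priori inequality -/

section apri

variable (vol : HM (KB A)⁻¹) (K : Kah A) (h : HM ((KB A)⁻¹ * N)) (P : Part A)

theorem duV_rank {v : A.ι → M → FI n → ℂ} (hv : ∀ i T, A.SmAt i fun x => v i x T) {i : A.ι}
    {x : M} (hx : x ∈ (A.e i).source) {γ : Fin n → ℂ} {t : FI n → ℂ}
    (hd : ∀ k, dbV v i k x = γ k • t) : duV K v i x = eW γ *ᵥ (GK K i x *ᵥ t) := by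
  have hz := (A.e i).map_source hx
  rw [duV_eq, du_eq (smM_Kr K i hz) (kahAt K i hz) (smV_rV hv i hz), eW_eq_sum γ,
    Matrix.sum_mulVec]
  refine Finset.sum_congr rfl fun k _ => ?_
  rw [← dbV_eq, hd, Matrix.mulVec_smul, Matrix.mulVec_smul, Matrix.smul_mulVec, Kr,
    (A.e i).left_inv hx]
  rfl

theorem pf_T_low (v w : MV N) {i : A.ι} {x : M} (hx : x ∈ (A.e i).source) {γ : Fin n → ℂ}
    {t : FI n → ℂ} (hd : ∀ k, dbV v.1 i k x = γ k • t) :
    pf vol (HB K h) (nabL (BN N) (low K N v)) (low K N w) x = (vol.w i x : ℂ)⁻¹ *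
      (h.w i x * (star t ⬝ᵥ (GK K i x *ᵥ (iW (star γ) *ᵥ w.1 i x)))) := by
  rw [pf_eq vol _ _ _ hx, HB_hd_iB, nab_low_eq_duV K v hx, duV_rank K v.2.1 hx hd, low_apply, oB_iB,
    Matrix.mulVec_mulVec (w.1 i x), GI_GK K hx, Matrix.one_mulVec, star_eW', dot_eW,
    Matrix.star_mulVec, GK_herm K hx, ← Matrix.dotProduct_mulVec]

include P in
/-- the a-priori inequality -/
theorem apriC {e κ : M → ℝ} (hm : Measurable e) (h0 : ∀ x, 0 ≤ e x)
    (hb : ∀ C, IsCompact C → ∃ c, ∀ x ∈ C, e x ≤ c)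
    (hpos : ∀ i, ∀ x ∈ (A.e i).source, ∀ ξ, 0 ≤ hq (cur h i x) ξ + e x * hq (K.g i x) ξ)
    (hκ : AEMeasurable κ (vm vol)) (hκ0 : ∀ x, 0 ≤ κ x) {D : ℝ} (hD0 : 0 ≤ D)
    (hD : ∫⁻ x, ENNReal.ofReal (κ x) ∂(vm vol) ≤ ENNReal.ofReal D) (v : MV N) (hv : Cs v.1)
    (hpt : ∀ᵐ x ∂(vm vol), ∃ i, x ∈ (A.e i).source ∧ ∃ (γ : Fin n → ℂ) (t : FI n → ℂ),
      (∀ k, dbV v.1 i k x = γ k • t) ∧ ∀ ξ : Fin n → ℂ,
        h.w i x * (star t ⬝ᵥ (GK K i x *ᵥ t)).re * ‖star ξ ⬝ᵥ γ‖ ^ 2 ≤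
          κ x * vol.w i x * (hq (cur h i x) ξ + e x * hq (K.g i x) ξ)) (u : CS (BN N)) :
    ‖(cH vol K h).inner (TC N (lowC K v hv)) u‖ ^ 2 ≤
      D * (nr (cH vol K h) (TsC K h u) ^ 2 + nr (cH vol K h) (TC N u) ^ 2 +
        qw vol (HB K h) (fun x => n * e x) u ^ 2) := by
  obtain ⟨w, hw, rfl⟩ := exists_low K u
  have hm' : Measurable fun x => (n : ℝ) * e x := hm.const_mul _
  have h0' : ∀ x, 0 ≤ (n : ℝ) * e x := fun x => mul_nonneg (Nat.cast_nonneg _) (h0 x)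
  have hb' : ∀ C, IsCompact C → ∃ c, ∀ x ∈ C, (n : ℝ) * e x ≤ c := fun C hC => by
    obtain ⟨c, hc⟩ := hb C hC
    exact ⟨n * c, fun x hx => mul_le_mul_of_nonneg_left (hc x hx) (Nat.cast_nonneg _)⟩
  have i1 := (integrable_inT vol K h P w hw).re
  have i2 := integrable_pq vol (HB K h) hm' h0' hb' (lowC K w hw)
  have hherm : ∀ i, ∀ x ∈ (A.e i).source, (cur h i x + (e x : ℂ) • K.g i x).IsHermitian :=
    fun i x hx => by
      unfold Matrix.IsHermitian
      rw [Matrix.conjTranspose_add, Matrix.conjTranspose_smul, (cur_herm h i hx).eq,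
        (K.pos i x hx).1.eq, Complex.star_def, Complex.conj_ofReal]
  have hG : ∀ i, ∀ x ∈ (A.e i).source, (GK K i x).PosSemidef := fun i x hx =>
    Gam_posSemidef (K.pos i x hx).transpose.posSemidef
  have key : ∀ i, ∀ x ∈ (A.e i).source, (vol.w i x)⁻¹ * (h.w i x *
      (Cv (GK K i x) (cur h i x + (e x : ℂ) • K.g i x) (w.1 i x) (w.1 i x)).re) ≤
      (gl vol (inT K h w.1 w.1) x).re + n * e x * pq vol (HB K h) (lowC K w hw).1 x := by
    intro i x hx
    have e1 : pq vol (HB K h) (lowC K w hw).1 x = (vol.w i x)⁻¹ * (h.w i x *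
        (star (w.1 i x) ⬝ᵥ (GK K i x *ᵥ w.1 i x)).re) := by
      rw [pq_eq vol _ _ hx]
      have h1 := HB_hd K h w w hx
      rw [show (HB K h).hd (lowC K w hw).1.1 (lowC K w hw).1.1 i x = _ from h1, inG,
        Complex.re_ofReal_mul]
      rfl
    rw [gl_eq (inT_isD h (isV w) (isV w)).tr hx, e1, ← Complex.ofReal_inv, Complex.re_ofReal_mul,
      inT, Complex.re_ofReal_mul, Cv_add, Cv_smul', Complex.add_re, Complex.re_ofReal_mul]
    have h1 := mul_le_mul_of_nonneg_left (Cv_g_le (K.pos i x hx) (w.1 i x))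
      (mul_nonneg (mul_nonneg (inv_pos.2 (vol.pos i x hx)).le (h.pos i x hx).le) (h0 x))
    unfold GK
    nlinarith
  have main := cs_meas (a := κ) (D := D)
    (f := fun x => pf vol (HB K h) (TC N (lowC K v hv)).1 (lowC K w hw).1 x)
    (b := fun x => (gl vol (inT K h w.1 w.1) x).re + n * e x * pq vol (HB K h) (lowC K w hw).1 x)
    (by simpa only [Complex.ofReal_one, one_mul] using
      integrable_pf vol (HB K h) wg_one (TC N (lowC K v hv)) (lowC K w hw))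
    (i1.add i2) (fun x => ?_) hκ hD0 hD ?_
  · rw [c1_inner]
    refine main.trans (mul_le_mul_of_nonneg_left ?_ hD0)
    have e2 := integral_add i1 i2
    simp only [RCLike.re_to_complex] at e2
    rw [e2, qw_sq vol _ h0']
    exact add_le_add (bknC_le vol K h P w hw) le_rfl
  · refine le_trans ?_ (key _ x (ix_mem x))
    refine mul_nonneg (inv_pos.2 (vol.pos _ x (ix_mem x))).le
      (mul_nonneg (h.pos _ x (ix_mem x)).le (Complex.le_def.1 (Cv_nonneg (hG _ x (ix_mem x))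
        (psd_of_hq (hherm _ x (ix_mem x)) fun ξ => ?_) _)).1)
    rw [hq_add, hq_smul]
    exact hpos _ x (ix_mem x) ξ
  · filter_upwards [hpt] with x ⟨i, hx, γ, t, hd, hle⟩
    have hw0 := h.pos i x hx
    have hv0 := vol.pos i x hx
    have h1 := contr_le (hG i x hx) (hherm i x hx) (γ := γ) (t := t)
      (a := κ x * vol.w i x / h.w i x) (fun ξ => by
        rw [hq_add, hq_smul, div_mul_eq_mul_div, le_div_iff₀ hw0]
        linarith [hle ξ]) (w.1 i x)
    refine le_trans ?_ (mul_le_mul_of_nonneg_left (key i x hx) (hκ0 x))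
    have e3 : pf vol (HB K h) (TC N (lowC K v hv)).1 (lowC K w hw).1 x = _ :=
      pf_T_low vol K h v w hx hd
    rw [e3, norm_mul, norm_mul, norm_inv, Complex.norm_real, Complex.norm_real,
      Real.norm_of_nonneg hw0.le, Real.norm_of_nonneg hv0.le, mul_pow, mul_pow]
    refine (mul_le_mul_of_nonneg_left (mul_le_mul_of_nonneg_left h1 (sq_nonneg _))
      (sq_nonneg _)).trans (le_of_eq ?_)
    field_simp

end apri

/-! ### decreasing weights -/

/-- decreasing weights `Φ` with losses `ε + lam` -/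
structure Wts {L : LB A} (h : HM L) (vol : HM (KB A)⁻¹) (K : Kah A) (ε : ℝ)
    (Φ lam : ℕ → M → ℝ) : Prop where
  sm : ∀ μ, A.Sm (Φ μ)
  anti : ∀ x, Antitone fun μ => Φ μ x
  lm : ∀ μ, Measurable (lam μ)
  l0 : ∀ μ x, 0 ≤ lam μ x
  lb : ∃ C, ∀ μ x, lam μ x ≤ C
  lim : ∀ᵐ x ∂(vm vol), Tendsto (fun μ => lam μ x) atTop (𝓝 0)
  pos : ∀ μ i, ∀ x ∈ (A.e i).source, ∀ ξ, 0 ≤ Cq h K (Φ μ) (ε + lam μ x) i x ξ

/-- data `v μ` with `∂̄ v = γ ⊗ t`, `|t|² |γ|² ≤ κ`, `∫ κ ≤ D` -/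
structure DatV (h : HM ((KB A)⁻¹ * N)) (vol : HM (KB A)⁻¹) (K : Kah A) (ε D : ℝ)
    (Φ lam κ : ℕ → M → ℝ) (v : ℕ → A.ι → M → FI n → ℂ) : Prop extends Wts h vol K ε Φ lam where
  vs : ∀ μ, IsV N (v μ)
  vc : ∀ μ, Cs (v μ)
  km : ∀ μ, AEMeasurable (κ μ) (vm vol)
  k0 : ∀ μ x, 0 ≤ κ μ x
  kD : ∀ μ, ∫⁻ x, ENNReal.ofReal (κ μ x) ∂(vm vol) ≤ ENNReal.ofReal D
  db : ∀ μ, ∀ᵐ x ∂(vm vol), ∃ i, x ∈ (A.e i).source ∧ ∃ (γ : Fin n → ℂ) (t : FI n → ℂ),
    (∀ k, dbV (v μ) i k x = γ k • t) ∧ ∀ ξ : Fin n → ℂ,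
      h.w i x * Real.exp (-Φ μ x) * (star t ⬝ᵥ (GK K i x *ᵥ t)).re * ‖star ξ ⬝ᵥ γ‖ ^ 2 ≤
        κ μ x * vol.w i x * Cq h K (Φ μ) (ε + lam μ x) i x ξ

variable {h : HM ((KB A)⁻¹ * N)} {vol : HM (KB A)⁻¹} {K : Kah A} {ε D : ℝ}
  {Φ lam κ : ℕ → M → ℝ} {v : ℕ → A.ι → M → FI n → ℂ}

theorem Cq_tw {L : LB A} (h : HM L) (K : Kah A) {Φ : M → ℝ} (hΦ : A.Sm Φ) (e : ℝ) {i : A.ι}
    {x : M} (hx : x ∈ (A.e i).source) (ξ : Fin n → ℂ) :
    Cq h K Φ e i x ξ = hq (cur (tw h Φ hΦ) i x) ξ + e * hq (K.g i x) ξ := by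
  rw [cur_tw h hΦ i hx, hq_add, hq_eq_qf, hq_eq_qf, hq_eq_qf, Cq]

theorem Wts.shift {L : LB A} {h : HM L} (H : Wts h vol K ε Φ lam) (m : ℕ) :
    Wts h vol K ε (fun μ => Φ (μ + m)) (fun μ => lam (μ + m)) where
  sm _ := H.sm _
  anti x _ _ hab := H.anti x (Nat.add_le_add_right hab m)
  lm _ := H.lm _
  l0 _ := H.l0 _
  lb := H.lb.imp fun _ hC _ => hC _
  lim := H.lim.mono fun _ hx => hx.comp (tendsto_add_atTop_nat m)
  pos _ := H.pos _

theorem DatV.shift (H : DatV h vol K ε D Φ lam κ v) (m : ℕ) :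
    DatV h vol K ε D (fun μ => Φ (μ + m)) (fun μ => lam (μ + m)) (fun μ => κ (μ + m))
      (fun μ => v (μ + m)) where
  toWts := H.toWts.shift m
  vs _ := H.vs _
  vc _ := H.vc _
  km _ := H.km _
  k0 _ := H.k0 _
  kD _ := H.kD _
  db _ := H.db _

/-- equi-integrability -/
theorem Wts.equi (H : Wts h vol K ε Φ lam) {Λ : ℝ} (hΛ0 : 0 ≤ Λ) (hΛ : ∀ μ x, lam μ x ≤ Λ)
    (μ0 : ℕ) (w : CS (BN N)) {δ : ℝ} (hδ : 0 < δ) : ∀ᶠ μ in atTop, ∀ u : CS (BN N),
    ∫ x, (ε + lam μ x) * pq vol (HB K (tw h (Φ μ) (H.sm μ))) u.1 x ∂(vm vol) ≤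
      ε * nr (cH vol K (tw h (Φ μ) (H.sm μ))) u ^ 2 + δ +
      2 * Λ * (nr (cH vol K (tw h (Φ μ) (H.sm μ))) u ^ 2 -
        nr (cH vol K (tw h (Φ μ0) (H.sm μ0))) u ^ 2) +
      2 * Λ * nr (cH vol K (tw h (Φ μ0) (H.sm μ0))) (u - w) ^ 2 := by
  set p : ℕ → CS (BN N) → M → ℝ := fun μ u => pq vol (HB K (tw h (Φ μ) (H.sm μ))) u.1 with hp
  have hi : ∀ μ u, Integrable (p μ u) (vm vol) := fun μ u => integrable_pq1 vol _ u
  have hl : ∀ μ μ' u, Integrable (fun x => lam μ x * p μ' u x) (vm vol) := fun μ μ' u =>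
    integrable_pq vol _ (H.lm μ) (H.l0 μ) (fun _ _ => ⟨Λ, fun x _ => hΛ μ x⟩) u
  have hp0 : ∀ μ u x, 0 ≤ p μ u x := fun μ u x => pq_nonneg vol _ _ x
  have hdom : Tendsto (fun μ => ∫ x, lam μ x * p μ0 w x ∂(vm vol)) atTop
      (𝓝 (∫ _x, (0 : ℝ) ∂(vm vol))) := by
    refine tendsto_integral_of_dominated_convergence (fun x => Λ * p μ0 w x)
      (fun μ => (hl μ μ0 w).1) ((hi μ0 w).const_mul Λ)
      (fun μ => Eventually.of_forall fun x => ?_) ?_
    · rw [Real.norm_of_nonneg (mul_nonneg (H.l0 μ x) (hp0 _ _ x))]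
      exact mul_le_mul_of_nonneg_right (hΛ μ x) (hp0 _ _ x)
    · filter_upwards [H.lim] with x hx
      have h1 := hx.mul_const (p μ0 w x)
      rwa [zero_mul] at h1
  rw [integral_zero] at hdom
  filter_upwards [eventually_ge_atTop μ0, hdom.eventually (eventually_lt_nhds (half_pos hδ))]
    with μ hμ hμδ u
  rw [nrm_c1_sq, nrm_c1_sq, nrm_c1_sq]
  have e0 : ∫ x, (ε + lam μ x) * p μ u x ∂(vm vol) =
      ε * ∫ x, p μ u x ∂(vm vol) + ∫ x, lam μ x * p μ u x ∂(vm vol) := by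
    rw [← integral_const_mul, ← integral_add ((hi μ u).const_mul ε) (hl μ μ u)]
    exact integral_congr_ae (Eventually.of_forall fun x => add_mul _ _ _)
  have e2 : ∫ x, lam μ x * p μ u x ∂(vm vol) ≤ ∫ x, (2 * (lam μ x * p μ0 w x) +
      2 * Λ * (p μ u x - p μ0 u x) + 2 * Λ * p μ0 (u - w) x) ∂(vm vol) := by
    refine integral_mono (hl μ μ u) (((((hl μ μ0 w).const_mul 2)).add
      (((hi μ u).sub (hi μ0 u)).const_mul _)).add ((hi μ0 (u - w)).const_mul _)) fun x => ?_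
    have p4 : p μ0 u x ≤ 2 * p μ0 (u - w) x + 2 * p μ0 w x := by
      have h1 := pq_add_le vol (HB K (tw h (Φ μ0) (H.sm μ0))) (u - w).1 w.1 x
      rwa [Submodule.coe_sub, sub_add_cancel] at h1
    have p5 : p μ0 u x ≤ p μ u x := by
      simp only [hp]
      rw [pq_tw, pq_tw]
      exact mul_le_mul_of_nonneg_right (Real.exp_le_exp.2 (neg_le_neg (H.anti x hμ)))
        (pq_nonneg vol _ _ x)
    have p7 := H.l0 μ x
    have p8 := hΛ μ x
    have q1 : lam μ x * (p μ u x - p μ0 u x) ≤ 2 * Λ * (p μ u x - p μ0 u x) :=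
      mul_le_mul_of_nonneg_right (by linarith) (by linarith)
    have q2 := mul_le_mul_of_nonneg_left p4 p7
    have q3 := mul_le_mul_of_nonneg_right p8 (hp0 μ0 (u - w) x)
    show lam μ x * p μ u x ≤ 2 * (lam μ x * p μ0 w x) +
      2 * Λ * (p μ u x - p μ0 u x) + 2 * Λ * p μ0 (u - w) x
    nlinarith
  have j1 : Integrable (fun x => 2 * (lam μ x * p μ0 w x)) (vm vol) := (hl μ μ0 w).const_mul 2
  have j2 : Integrable (fun x => 2 * Λ * (p μ u x - p μ0 u x)) (vm vol) :=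
    ((hi μ u).sub (hi μ0 u)).const_mul _
  have j3 : Integrable (fun x => 2 * Λ * p μ0 (u - w) x) (vm vol) := (hi μ0 (u - w)).const_mul _
  have j12 : Integrable (fun x => 2 * (lam μ x * p μ0 w x) + 2 * Λ * (p μ u x - p μ0 u x))
    (vm vol) := j1.add j2
  rw [integral_add j12 j3, integral_add j1 j2, integral_const_mul, integral_const_mul,
    integral_const_mul, integral_sub (hi μ u) (hi μ0 u)] at e2
  show ∫ x, (ε + lam μ x) * p μ u x ∂(vm vol) ≤ ε * ∫ x, p μ u x ∂(vm vol) + δ +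
    2 * Λ * (∫ x, p μ u x ∂(vm vol) - ∫ x, p μ0 u x ∂(vm vol)) +
    2 * Λ * ∫ x, p μ0 (u - w) x ∂(vm vol)
  linarith

/-! ### restriction to the chart domains -/

open Classical in
/-- a polyvector field as an element of `MV N` -/
def toMV {v : A.ι → M → FI n → ℂ} (hv : IsV N v) : MV N :=
  ⟨fun i x => if x ∈ (A.e i).source then v i x else 0, mem_MV
    ⟨fun i T => (hv.sm i T).congr fun z hz => by
        simp only [if_pos ((A.e i).map_target hz)],
      fun i j x hx => by simp only [if_pos hx.1, if_pos hx.2]; exact hv.tr i j x hx⟩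
    fun i x hx => if_neg hx⟩

theorem toMV_apply {v : A.ι → M → FI n → ℂ} (hv : IsV N v) {i : A.ι} {x : M}
    (hx : x ∈ (A.e i).source) : (toMV hv).1 i x = v i x := if_pos hx

theorem toMV_cs {v : A.ι → M → FI n → ℂ} (hv : IsV N v) (hc : Cs v) : Cs (toMV hv).1 := by
  obtain ⟨C, hC, h0⟩ := hc
  refine ⟨C, hC, fun i x hx => ?_⟩
  by_cases hi : x ∈ (A.e i).source
  · rw [toMV_apply hv hi, h0 i x hx]
  · exact if_neg hi

theorem toMV_dbV {v : A.ι → M → FI n → ℂ} (hv : IsV N v) {i : A.ι} {x : M}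
    (hx : x ∈ (A.e i).source) (k : Fin n) : dbV (toMV hv).1 i k x = dbV v i k x := by
  funext T
  refine T223.Hm.dd_congr (s := I) (a := k) (f := fun y => (toMV hv).1 i y T)
    (g := fun y => v i y T) hx ?_
  filter_upwards [(A.e i).open_source.mem_nhds hx] with y hy
  rw [toMV_apply hv hy]


/-- the test form of a test polyvector -/
def tf (K : Kah A) {v : A.ι → M → FI n → ℂ} (hv : IsV N v) (hc : Cs v) : CS (BN N) :=
  lowC K (toMV hv) (toMV_cs hv hc)

/-- **the dual inequality**, in the pre-Hilbert space of the first weight -/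
theorem DatV.dual0 (H : DatV h vol K ε D Φ lam κ v) (P : Part A) (hcut : Cut K) (hε : 0 ≤ ε)
    (hD : 0 ≤ D) (w : CS (BN N)) {η : ℝ} (hη : 0 < η) : ∀ᶠ μ in atTop,
    ‖(cH vol K (tw h (Φ 0) (H.sm 0))).inner (TC N (tf K (H.vs μ) (H.vc μ))) w‖ ^ 2 ≤
      D * (nr (cH vol K (tw h (Φ 0) (H.sm 0))) (TsC K (tw h (Φ 0) (H.sm 0)) w) ^ 2 +
        n * ε * nr (cH vol K (tw h (Φ 0) (H.sm 0))) w ^ 2) + η := by
  obtain ⟨Λ', hΛ'⟩ := H.lb
  set Λ := max Λ' 0 with hΛd
  have hΛ0 : 0 ≤ Λ := le_max_right _ _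
  have hΛ : ∀ μ x, lam μ x ≤ Λ := fun μ x => (hΛ' μ x).trans (le_max_left _ _)
  have hn : (0 : ℝ) ≤ n := Nat.cast_nonneg _
  have e0 : ∀ μ x, 0 ≤ ε + lam μ x := fun μ x => add_nonneg hε (H.l0 μ x)
  have em : ∀ μ, Measurable fun x => ε + lam μ x := fun μ => (H.lm μ).const_add ε
  have e0' : ∀ μ x, 0 ≤ n * (ε + lam μ x) := fun μ x => mul_nonneg hn (e0 μ x)
  have eb' : ∀ μ x, n * (ε + lam μ x) ≤ n * (ε + Λ) := fun μ x =>
    mul_le_mul_of_nonneg_left (add_le_add le_rfl (hΛ μ x)) hn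
  refine dem_mov (fun μ => cH vol K (tw h (Φ μ) (H.sm μ))) (TC N)
    (fun μ => TsC K (tw h (Φ μ) (H.sm μ))) (fun μ => hadjC vol K _ P)
    (fun μ μ' hμ => nr_tw_mono vol K h _ _ fun x => H.anti x hμ)
    (fun μ => mulC _ (sm_expC (H.sm μ) (H.sm 0))) (fun μ => cH_tw vol K h _ _ _)
    (fun μ => TC N (tf K (H.vs μ) (H.vc μ))) hD (mul_nonneg hn hε) (Cq := n * (2 * Λ))
    (by positivity)
    (fun μ => qw vol (HB K (tw h (Φ μ) (H.sm μ))) fun x => n * (ε + lam μ x))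
    (fun μ0 w δ hδ => ?_) (fun μ w τ hτ => ?_) w hη
  · filter_upwards [H.toWts.equi hΛ0 hΛ μ0 w (δ := δ / (n + 1)) (by positivity)] with μ hμ u
    have h1 := mul_le_mul_of_nonneg_left (hμ u) hn
    have h2 : n * (δ / (n + 1)) ≤ δ := by
      rw [← mul_div_assoc, div_le_iff₀ (by positivity)]
      nlinarith
    have h3 : ∫ x, n * (ε + lam μ x) * pq vol (HB K (tw h (Φ μ) (H.sm μ))) u.1 x ∂(vm vol) =
        n * ∫ x, (ε + lam μ x) * pq vol (HB K (tw h (Φ μ) (H.sm μ))) u.1 x ∂(vm vol) := by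
      rw [← integral_const_mul]
      exact integral_congr_ae (Eventually.of_forall fun x => mul_assoc _ _ _)
    rw [qw_sq vol _ (e0' μ), h3]
    unfold nr at h1
    linarith
  · refine proj_cut_core (cH vol K (tw h (Φ μ) (H.sm μ))) (TC N)
      (TsC K (tw h (Φ μ) (H.sm μ))) (hadjC vol K (tw h (Φ μ) (H.sm μ)) P) hTTC
      (TC N (tf K (H.vs μ) (H.vc μ))) (hTTC _) hD
      (qw vol (HB K (tw h (Φ μ) (H.sm μ))) fun x => n * (ε + lam μ x))
      (fun u => Real.sqrt_nonneg _) (Cq := Real.sqrt (n * (ε + Λ))) (fun u u' => ?_)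
      (cutP vol K (tw h (Φ μ) (H.sm μ)) P hcut _ _ fun χ hs h01 u =>
        qw_mul_le vol _ ((em μ).const_mul _) (e0' μ)
        (fun _ _ => ⟨_, fun x _ => eb' μ x⟩) hs h01 u) (fun u => ?_) w hτ
    · exact (qw_abs_sub vol _ ((em μ).const_mul _) (e0' μ) (fun _ _ => ⟨_, fun x _ => eb' μ x⟩)
        u u').trans (qw_le vol _ (HB_pos K _) (by positivity) (e0' μ) (eb' μ) _)
    · refine apriC vol K _ P (em μ) (e0 μ) (fun _ _ => ⟨_, fun x _ => add_le_add le_rfl (hΛ μ x)⟩)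
        (fun i x hx ξ => ?_) (H.km μ) (H.k0 μ) hD (H.kD μ) _ _ ?_ u
      · rw [← Cq_tw h K (H.sm μ) _ hx]
        exact H.pos μ i x hx ξ
      · filter_upwards [H.db μ] with x ⟨i, hx, γ, t, hd, hle⟩
        refine ⟨i, hx, γ, t, fun k => (toMV_dbV _ hx k).trans (hd k), fun ξ => ?_⟩
        rw [← Cq_tw h K (H.sm μ) _ hx]
        exact hle ξ

end

end Crest.Agent.X261.Hs
end

-- ▼ part X261/Hs/F
section

/-!
# X261 / Hs (helper68): the Hoermander-Demailly inequality with singular weights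

* `DatV.dual`, `hs_lev` : the dual inequality for one level `ε`, at any weight `Φ m`;
* `hs_sing` : the limit inequality `|L|² ≤ D ∫ ρ |δ u|²`, `ρ ≥ limsup e^Φ`;
* `hs_scal`, `hs_hahn` : data `c ν μ • v₁`, and the Hahn-Banach form.
-/

set_option autoImplicit false
set_option linter.unusedSectionVars false
set_option linter.style.haveILetI false

open Set Filter Topology Complex MeasureTheory
open scoped ContDiff Matrix ComplexConjugate ComplexOrder

namespace Crest.Agent.X261.Hs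

open Crest.Agent.R275 Crest.Agent.R275.Geo Crest.Agent.R275.Pai323 Crest.Agent.R275.Core144
open Crest.Agent.R273.Defs_333 Crest.Agent.R273.HM_333 Crest.Agent.R273.Kah_333
open Crest.Agent.R273.Vm_333 Crest.Agent.R273.NormC_505
open Crest.Agent.R273.Fock_243 Crest.Agent.R273.Bkn_243 Crest.Agent.R273.Pos_243
open Crest.Agent.R273.LamN127 Crest.Agent.R273.DVec_733 Crest.Agent.R273.DMet_733
open Crest.Agent.R273.DMetB_733 Crest.Agent.R273.BKNa_37 Crest.Agent.R273.BKNb_37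
open Crest.Agent.R273.BKNc_37 Crest.Agent.R273.Lim_505
open Crest.Agent.R273.HDN_505 (HB HB_pos)
open Crest.Agent.T223.Hm (gl ix ix_mem Cs Cut hq gl_eq gl_sm gl_congr integral_gl)
open Crest.Agent.X261.Hc (Cq hq_eq_qf)
open Crest.Agent.X261.Jet.HL (Th WS nW pr)

noncomputable section

theorem eq_of_inner {S : Type*} [AddCommGroup S] [Module ℂ S] (c : InnerProductSpace.Core ℂ S)
    {a b : S} (h : ∀ u, c.inner u a = c.inner u b) : a = b := by
  letI : NormedAddCommGroup S := c.toNormedAddCommGroup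
  letI : InnerProductSpace ℂ S := .ofCore c.toCore
  exact ext_inner_left ℂ h

variable {n : ℕ} {M : Type} [TopologicalSpace M] {A : Atl n M} {N : LB A}
variable [Countable A.ι] [T2Space M] [MeasurableSpace M] [BorelSpace M]

theorem sm_exp1 {Φ : M → ℝ} (hΦ : A.Sm Φ) : A.Sm fun x => (Real.exp (Φ x) : ℂ) := fun i =>
  Complex.ofRealCLM.contDiff.comp_contDiffOn (Real.contDiff_exp.comp_contDiffOn (hΦ i))

section tw

variable (vol : HM (KB A)⁻¹) (K : Kah A) (h : HM ((KB A)⁻¹ * N)) {Φ : M → ℝ} (hΦ : A.Sm Φ)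

theorem cH_tw1 (u w : CS (BN N)) :
    (cH vol K (tw h Φ hΦ)).inner u (mulC _ (sm_exp1 hΦ) w) = (cH vol K h).inner u w := by
  rw [c1_inner, c1_inner]
  refine integral_congr_ae (Eventually.of_forall fun x => ?_)
  rw [pf_mul_right, pf_tw, ← mul_assoc, ← Complex.ofReal_mul, ← Real.exp_add, add_neg_cancel,
    Real.exp_zero, Complex.ofReal_one, one_mul]

include vol in
/-- `δ_Φ (e^Φ w) = e^Φ δ w` -/
theorem TsC_tw1 (P : Part A) (w : CS (BN N)) :
    TsC K (tw h Φ hΦ) (mulC _ (sm_exp1 hΦ) w) = mulC _ (sm_exp1 hΦ) (TsC K h w) :=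
  eq_of_inner (cH vol K (tw h Φ hΦ)) fun u => by
    rw [← hadjC vol K _ P, cH_tw1, cH_tw1, hadjC vol K _ P]

theorem nr_tw1 (u : CS (BN N)) : nr (cH vol K (tw h Φ hΦ)) (mulC _ (sm_exp1 hΦ) u) ^ 2 =
    ∫ x, Real.exp (Φ x) * pq vol (HB K h) u.1 x ∂(vm vol) := by
  rw [nrm_c1_sq]
  refine integral_congr_ae (Eventually.of_forall fun x => ?_)
  rw [pq_mul, pq_tw, Complex.norm_real, Real.norm_of_nonneg (Real.exp_pos _).le, ← mul_assoc, sq,
    mul_assoc (Real.exp _), ← Real.exp_add, add_neg_cancel, Real.exp_zero, mul_one]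

theorem nW_low (U : M → ℝ) (w : MV N) (hw : Cs w.1) : nW K h vol U w.1 =
    ∫ x, Real.exp (U x) * pq vol (HB K h) (lowC K w hw).1 x ∂(vm vol) :=
  integral_congr_ae (Eventually.of_forall fun x => by
    have h1 := congrArg Complex.re (pf_low vol K h w w x)
    exact congrArg (fun t => Real.exp (U x) * t) h1.symm)

theorem pr_low (v w : MV N) (hv : Cs v.1) (hw : Cs w.1) :
    pr K h vol v.1 w.1 = (cH vol K h).inner (lowC K v hv) (lowC K w hw) :=
  (cH_low vol K h v w hv hw).symm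

end tw

variable {h : HM ((KB A)⁻¹ * N)} {vol : HM (KB A)⁻¹} {K : Kah A}

/-- **the dual inequality** at one level `ε`, for the weight `Φ m` -/
theorem DatV.dual {ε D : ℝ} {Φ lam κ : ℕ → M → ℝ} {v : ℕ → A.ι → M → FI n → ℂ}
    (H : DatV h vol K ε D Φ lam κ v) (P : Part A) (hcut : Cut K) (hε : 0 ≤ ε)
    (hD : 0 ≤ D) (m : ℕ) (u : CS (BN N)) {η : ℝ} (hη : 0 < η) : ∀ᶠ μ in atTop,
    ‖(cH vol K h).inner (tf K (H.vs μ) (H.vc μ)) (TsC K h u)‖ ^ 2 ≤
      D * (∫ x, Real.exp (Φ m x) * pq vol (HB K h) (TsC K h u).1 x ∂(vm vol) +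
        n * ε * ∫ x, Real.exp (Φ m x) * pq vol (HB K h) u.1 x ∂(vm vol)) + η := by
  have h1 := (H.shift m).dual0 P hcut hε hD (mulC _ (sm_exp1 ((H.shift m).sm 0)) u) hη
  rw [TsC_tw1 vol K h _ P, nr_tw1, nr_tw1] at h1
  rw [← map_add_atTop_eq_nat m, eventually_map]
  filter_upwards [h1] with μ hμ
  rw [cH_tw1, hadjC vol K h P] at hμ
  simp only [zero_add] at hμ
  exact hμ

theorem toMV_isV (v : MV N) : toMV (isV v) = v := Subtype.ext (funext fun i => funext fun x => by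
  by_cases hx : x ∈ (A.e i).source
  · exact toMV_apply _ hx
  · rw [(toMV (isV v)).2.2.1 i x hx, v.2.2.1 i x hx])

theorem tf_isV (K : Kah A) (v : MV N) (hv : Cs v.1) : tf K (isV v) hv = lowC K v hv :=
  Subtype.ext (congrArg (low K N) (toMV_isV v))

theorem Th_eq {L : LB A} (K : Kah A) (h : HM L) (U : M → ℝ) (e : ℝ) (i : A.ι) (x : M)
    (ξ : Fin n → ℂ) : Th K h U e i x ξ = Cq h K U e i x ξ := by
  rw [Th, Cq, hq_eq_qf, hq_eq_qf, hq_eq_qf]

theorem ws_wts {L : LB A} {h : HM L} {Φ lam : ℕ → ℕ → M → ℝ} {eps : ℕ → ℝ} {C0 : ℝ}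
    (W : WS K h vol Φ lam eps C0) (ν : ℕ) : Wts h vol K (eps ν) (Φ ν) (lam ν) where
  sm := W.sm ν
  anti := W.anti ν
  lm := W.lm ν
  l0 := W.l0 ν
  lb := W.lb ν
  lim := W.lim ν
  pos μ i x hx ξ := Th_eq K h _ _ i x ξ ▸ W.pos ν μ i x hx ξ

/-- data `v ν μ` with `∂̄ v = γ ⊗ t`, `|t|² |γ|²_Θ ≤ κ`, `∫ κ ≤ D` -/
structure DS (K : Kah A) (h : HM ((KB A)⁻¹ * N)) (vol : HM (KB A)⁻¹) (Φ lam : ℕ → ℕ → M → ℝ)
    (eps : ℕ → ℝ) (D : ℝ) (κ : ℕ → ℕ → M → ℝ) (v : ℕ → ℕ → MV N) : Prop where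
  vc : ∀ ν μ, Cs (v ν μ).1
  km : ∀ ν μ, AEMeasurable (κ ν μ) (vm vol)
  k0 : ∀ ν μ x, 0 ≤ κ ν μ x
  kD : ∀ ν μ, ∫⁻ x, ENNReal.ofReal (κ ν μ x) ∂(vm vol) ≤ ENNReal.ofReal D
  db : ∀ ν μ, ∀ᵐ x ∂(vm vol), ∃ i, x ∈ (A.e i).source ∧ ∃ (γ : Fin n → ℂ) (t : FI n → ℂ),
    (∀ k, dbV (v ν μ).1 i k x = γ k • t) ∧ ∀ ξ : Fin n → ℂ,
      h.w i x * Real.exp (-Φ ν μ x) * (star t ⬝ᵥ (GK K i x *ᵥ t)).re * ‖star ξ ⬝ᵥ γ‖ ^ 2 ≤
        κ ν μ x * vol.w i x * Th K h (Φ ν μ) (eps ν + lam ν μ x) i x ξ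

variable {Φ lam κ : ℕ → ℕ → M → ℝ} {eps : ℕ → ℝ} {C0 D : ℝ} {v : ℕ → ℕ → MV N}

theorem DS.datV (H : DS K h vol Φ lam eps D κ v) (W : WS K h vol Φ lam eps C0) (ν : ℕ) :
    DatV h vol K (eps ν) D (Φ ν) (lam ν) (κ ν) fun μ => (v ν μ).1 where
  toWts := ws_wts W ν
  vs μ := isV (v ν μ)
  vc := H.vc ν
  km := H.km ν
  k0 := H.k0 ν
  kD := H.kD ν
  db μ := by
    filter_upwards [H.db ν μ] with x ⟨i, hx, γ, t, h1, h2⟩
    exact ⟨i, hx, γ, t, h1, fun ξ => Th_eq K h _ _ i x ξ ▸ h2 ξ⟩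

/-- the dual inequality at the level `ν` -/
theorem hs_lev (W : WS K h vol Φ lam eps C0) (H : DS K h vol Φ lam eps D κ v) (P : Part A)
    (hcut : Cut K) (hD : 0 ≤ D) (ν m : ℕ) (u : CS (BN N)) {η : ℝ} (hη : 0 < η) : ∀ᶠ μ in atTop,
    ‖(cH vol K h).inner (lowC K (v ν μ) (H.vc ν μ)) (TsC K h u)‖ ^ 2 ≤
      D * (∫ x, Real.exp (Φ ν m x) * pq vol (HB K h) (TsC K h u).1 x ∂(vm vol) +
        n * eps ν * ∫ x, Real.exp (Φ ν m x) * pq vol (HB K h) u.1 x ∂(vm vol)) + η := by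
  filter_upwards [(H.datV W ν).dual P hcut (W.e0 ν) hD m u hη] with μ hμ
  rw [← tf_isV]
  exact hμ

/-- the weights are eventually almost below `ρ` in the mean -/
theorem mean_le {X : Type*} [MeasurableSpace X] {μ : Measure X} {E : ℕ → ℕ → X → ℝ}
    (hm : ∀ ν m, Measurable (E ν m)) (h0 : ∀ ν m x, 0 ≤ E ν m x)
    (ha : ∀ ν x, Antitone fun m => E ν m x) {C : ℝ} (hC : ∀ ν x, E ν 0 x ≤ C) {ρ f : X → ℝ}
    (hρ : AEMeasurable ρ μ) (hρ0 : ∀ x, 0 ≤ ρ x) (hf : Integrable f μ) (hf0 : ∀ x, 0 ≤ f x)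
    (hi : Integrable (fun x => ρ x * f x) μ)
    (hl : ∀ᵐ x ∂μ, ∀ δ > 0, ∀ᶠ ν in atTop, ∃ m, E ν m x ≤ ρ x + δ) {η : ℝ} (hη : 0 < η) :
    ∀ᶠ ν in atTop, ∃ m, ∫ x, E ν m x * f x ∂μ ≤ ∫ x, ρ x * f x ∂μ + η := by
  have hEC : ∀ ν m x, E ν m x ≤ C := fun ν m x => (ha ν x (Nat.zero_le m)).trans (hC ν x)
  have hbd : ∀ ν x, BddBelow (range fun m => E ν m x) := fun ν x =>
    ⟨0, by rintro _ ⟨m, rfl⟩; exact h0 ν m x⟩
  set F : ℕ → X → ℝ := fun ν x => ⨅ m, E ν m x with hF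
  have hFm : ∀ ν, Measurable (F ν) := fun ν => Measurable.iInf (hm ν)
  have hFl : ∀ ν x, Tendsto (fun m => E ν m x) atTop (𝓝 (F ν x)) := fun ν x =>
    tendsto_atTop_ciInf (ha ν x) (hbd ν x)
  have hFC : ∀ ν x, F ν x ≤ C := fun ν x => (ciInf_le (hbd ν x) 0).trans (hC ν x)
  have bd : ∀ (e : ℝ) x, e ≤ C → ‖max (e - ρ x) 0 * f x‖ ≤ max C 0 * f x := fun e x he => by
    rw [Real.norm_of_nonneg (mul_nonneg (le_max_right _ _) (hf0 x))]
    exact mul_le_mul_of_nonneg_right (max_le_max (by linarith [hρ0 x]) le_rfl) (hf0 x)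
  have ms : ∀ e : X → ℝ, Measurable e →
      AEStronglyMeasurable (fun x => max (e x - ρ x) 0 * f x) μ := fun e he =>
    (((he.aemeasurable.sub hρ).max aemeasurable_const).mul hf.1.aemeasurable).aestronglyMeasurable
  have l1 : Tendsto (fun ν => ∫ x, max (F ν x - ρ x) 0 * f x ∂μ) atTop (𝓝 (∫ _x, (0 : ℝ) ∂μ)) := by
    refine tendsto_integral_of_dominated_convergence _ (fun ν => ms _ (hFm ν))
      (hf.const_mul (max C 0)) (fun ν => Eventually.of_forall fun x => bd _ x (hFC ν x)) ?_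
    filter_upwards [hl] with x hx
    have h1 : Tendsto (fun ν => max (F ν x - ρ x) 0) atTop (𝓝 0) := by
      refine tendsto_order.2 ⟨fun a ha => Eventually.of_forall fun ν =>
        ha.trans_le (le_max_right _ _), fun a ha => ?_⟩
      filter_upwards [hx (a / 2) (half_pos ha)] with ν ⟨m, hm⟩
      have h2 : F ν x ≤ E ν m x := ciInf_le (hbd ν x) m
      exact max_lt (by linarith) ha
    have h2 := h1.mul_const (f x)
    rwa [zero_mul] at h2
  rw [integral_zero] at l1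
  filter_upwards [l1.eventually (eventually_lt_nhds hη)] with ν hν
  have l2 : Tendsto (fun m => ∫ x, max (E ν m x - ρ x) 0 * f x ∂μ) atTop
      (𝓝 (∫ x, max (F ν x - ρ x) 0 * f x ∂μ)) :=
    tendsto_integral_of_dominated_convergence _ (fun m => ms _ (hm ν m))
      (hf.const_mul (max C 0)) (fun m => Eventually.of_forall fun x => bd _ x (hEC ν m x))
      (Eventually.of_forall fun x =>
        (((hFl ν x).sub_const _).max tendsto_const_nhds).mul_const (f x))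
  obtain ⟨m, hm'⟩ := (l2.eventually (eventually_lt_nhds hν)).exists
  refine ⟨m, ?_⟩
  have i1 : Integrable (fun x => max (E ν m x - ρ x) 0 * f x) μ :=
    (hf.const_mul (max C 0)).mono' (ms _ (hm ν m))
      (Eventually.of_forall fun x => bd _ x (hEC ν m x))
  have e1 : ∫ x, E ν m x * f x ∂μ ≤ ∫ x, (ρ x * f x + max (E ν m x - ρ x) 0 * f x) ∂μ := by
    refine integral_mono_of_nonneg (Eventually.of_forall fun x => mul_nonneg (h0 ν m x) (hf0 x))
      (hi.add i1) (Eventually.of_forall fun x => ?_)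
    show E ν m x * f x ≤ ρ x * f x + max (E ν m x - ρ x) 0 * f x
    rw [← add_mul]
    exact mul_le_mul_of_nonneg_right (by linarith [le_max_left (E ν m x - ρ x) 0]) (hf0 x)
  rw [integral_add hi i1] at e1
  linarith

/-- **the Hoermander-Demailly inequality with a singular weight** -/
theorem hs_sing (W : WS K h vol Φ lam eps C0) (H : DS K h vol Φ lam eps D κ v) (P : Part A)
    (hcut : Cut K) (hD : 0 ≤ D) {ρ : M → ℝ} (hm : Measurable ρ) (h0 : ∀ x, 0 ≤ ρ x)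
    (hb : ∀ C, IsCompact C → ∃ c, ∀ x ∈ C, ρ x ≤ c)
    (hl : ∀ᵐ x ∂(vm vol), ∀ δ > 0, ∀ᶠ ν in atTop, ∃ m, Real.exp (Φ ν m x) ≤ ρ x + δ)
    (u : CS (BN N)) {L : ℂ} (hL : ∀ δ > 0, ∀ᶠ ν in atTop, ∃ᶠ μ in atTop,
      ‖(cH vol K h).inner (lowC K (v ν μ) (H.vc ν μ)) (TsC K h u) - L‖ ≤ δ) :
    ‖L‖ ^ 2 ≤ D * ∫ x, ρ x * pq vol (HB K h) (TsC K h u).1 x ∂(vm vol) := by
  set I := ∫ x, ρ x * pq vol (HB K h) (TsC K h u).1 x ∂(vm vol) with hI
  set J := ∫ x, Real.exp C0 * pq vol (HB K h) u.1 x ∂(vm vol) with hJ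
  have key : ∀ δ > 0, ‖L‖ ^ 2 ≤ D * (I + δ + δ) + δ + δ * (2 * ‖L‖ + δ) := by
    intro δ hδ
    have e1 := mean_le (μ := vm vol) (E := fun ν m x => Real.exp (Φ ν m x))
      (fun ν m => (continuous_of_sm (W.sm ν m)).measurable.exp) (fun _ _ _ => (Real.exp_pos _).le)
      (fun ν x _ _ hab => Real.exp_le_exp.2 (W.anti ν x hab)) (C := Real.exp C0)
      (fun ν x => Real.exp_le_exp.2 (W.le ν x)) hm.aemeasurable h0
      (integrable_pq1 vol (HB K h) (TsC K h u)) (fun x => pq_nonneg vol _ _ x)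
      (integrable_pq vol (HB K h) hm h0 hb (TsC K h u)) hl hδ
    have e2 : ∀ᶠ ν in atTop, n * eps ν * J < δ := by
      have h1 := (W.elim.const_mul (n : ℝ)).mul_const J
      rw [mul_zero, zero_mul] at h1
      exact h1.eventually (eventually_lt_nhds hδ)
    obtain ⟨ν, ⟨m, h1⟩, h2, h3⟩ := (e1.and (e2.and (hL δ hδ))).exists
    obtain ⟨μ, h4, h5⟩ := (h3.and_eventually (hs_lev W H P hcut hD ν m u hδ)).exists
    have h6 : ∫ x, Real.exp (Φ ν m x) * pq vol (HB K h) u.1 x ∂(vm vol) ≤ J :=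
      integral_mono_of_nonneg (Eventually.of_forall fun x =>
        mul_nonneg (Real.exp_pos _).le (pq_nonneg vol _ _ x))
        ((integrable_pq1 vol (HB K h) u).const_mul _) (Eventually.of_forall fun x =>
          mul_le_mul_of_nonneg_right (Real.exp_le_exp.2 ((W.anti ν x (Nat.zero_le m)).trans
            (W.le ν x))) (pq_nonneg vol _ _ x))
    have h7 := mul_le_mul_of_nonneg_left h6 (mul_nonneg (Nat.cast_nonneg n) (W.e0 ν))
    generalize (cH vol K h).inner (lowC K (v ν μ) (H.vc ν μ)) (TsC K h u) = a at h4 h5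
    have h8 : ‖a‖ ^ 2 ≤ D * (I + δ + δ) + δ :=
      h5.trans (add_le_add (mul_le_mul_of_nonneg_left (by linarith) hD) le_rfl)
    have h9 : ‖L‖ ≤ ‖a‖ + δ := by
      have := norm_sub_norm_le L a
      rw [norm_sub_rev] at this
      linarith
    have h10 : ‖a‖ ≤ ‖L‖ + δ := by linarith [norm_sub_norm_le a L]
    nlinarith [norm_nonneg L, norm_nonneg a]
  have hc : Tendsto (fun δ : ℝ => D * (I + δ + δ) + δ + δ * (2 * ‖L‖ + δ)) (𝓝[>] 0)
      (𝓝 (D * (I + 0 + 0) + 0 + 0 * (2 * ‖L‖ + 0))) :=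
    tendsto_nhdsWithin_of_tendsto_nhds (Continuous.tendsto (by fun_prop) 0)
  have h1 := ge_of_tendsto hc (eventually_nhdsWithin_of_forall key)
  simpa using h1

/-! ### scalar data -/

section scal

variable {B : FBun A} (vol : HM (KB A)⁻¹) (h : HDen B)

theorem integrable_cpf {c : M → ℂ} (hc : AEStronglyMeasurable c (vm vol)) (hb : ∀ x, ‖c x‖ ≤ 1)
    (g w : CS B) : Integrable (fun x => conj (c x) * pf vol h g.1 w.1 x) (vm vol) := by
  have h1 : Integrable (fun x => pf vol h g.1 w.1 x) (vm vol) := by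
    simpa only [Complex.ofReal_one, one_mul] using integrable_pf vol h wg_one g w
  refine h1.bdd_mul (c := 1) (Complex.continuous_conj.comp_aestronglyMeasurable hc)
    (Eventually.of_forall fun x => ?_)
  rw [Complex.norm_conj]
  exact hb x

theorem pf_add_right (u w w' : Sec B) (x : M) :
    pf vol h u (w + w') x = pf vol h u w x + pf vol h u w' x := by
  rw [← pf_conj, pf_add_left, map_add, pf_conj, pf_conj]

theorem pf_smul_right (c : ℂ) (u w : Sec B) (x : M) :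
    pf vol h u (c • w) x = c * pf vol h u w x := by
  rw [← pf_conj, pf_smul_left, map_mul, pf_conj, Complex.conj_conj]

/-- the pairing with the measurable section `c • g` -/
def lamC {c : M → ℂ} (hc : AEStronglyMeasurable c (vm vol)) (hb : ∀ x, ‖c x‖ ≤ 1) (g : CS B) :
    CS B →ₗ[ℂ] ℂ where
  toFun w := ∫ x, conj (c x) * pf vol h g.1 w.1 x ∂(vm vol)
  map_add' w w' := by
    rw [← integral_add (integrable_cpf vol h hc hb g w) (integrable_cpf vol h hc hb g w')]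
    refine integral_congr_ae (Eventually.of_forall fun x => ?_)
    simp only [Submodule.coe_add, pf_add_right, mul_add]
  map_smul' a w := by
    rw [RingHom.id_apply, smul_eq_mul, ← integral_const_mul]
    refine integral_congr_ae (Eventually.of_forall fun x => ?_)
    simp only [Submodule.coe_smul, pf_smul_right]
    ring

theorem lamC_apply {c : M → ℂ} (hc : AEStronglyMeasurable c (vm vol)) (hb : ∀ x, ‖c x‖ ≤ 1)
    (g w : CS B) : lamC vol h hc hb g w = ∫ x, conj (c x) * pf vol h g.1 w.1 x ∂(vm vol) := rfl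

theorem tendsto_lamC {c : ℕ → M → ℂ} {c0 : M → ℂ} (hc : ∀ k, AEStronglyMeasurable (c k) (vm vol))
    (hb : ∀ k x, ‖c k x‖ ≤ 1) (hl : ∀ᵐ x ∂(vm vol), Tendsto (fun k => c k x) atTop (𝓝 (c0 x)))
    (g w : CS B) : Tendsto (fun k => ∫ x, conj (c k x) * pf vol h g.1 w.1 x ∂(vm vol)) atTop
      (𝓝 (∫ x, conj (c0 x) * pf vol h g.1 w.1 x ∂(vm vol))) := by
  have h1 : Integrable (fun x => pf vol h g.1 w.1 x) (vm vol) := by
    simpa only [Complex.ofReal_one, one_mul] using integrable_pf vol h wg_one g w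
  refine tendsto_integral_of_dominated_convergence _
    (fun k => (integrable_cpf vol h (hc k) (hb k) g w).1) h1.norm
    (fun k => Eventually.of_forall fun x => ?_) ?_
  · rw [norm_mul, Complex.norm_conj]
    exact mul_le_of_le_one_left (norm_nonneg _) (hb k x)
  · filter_upwards [hl] with x hx
    exact ((Complex.continuous_conj.tendsto _).comp hx).mul_const _

end scal

theorem lamC_low {c : M → ℂ} (hc : AEStronglyMeasurable c (vm vol)) (hb : ∀ x, ‖c x‖ ≤ 1)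
    (v1 w : MV N) (h1 : Cs v1.1) (hw : Cs w.1) :
    lamC vol (HB K h) hc hb (lowC K v1 h1) (lowC K w hw) =
      ∫ x, conj (c x) * gl vol (inG K h w.1 v1.1) x ∂(vm vol) :=
  integral_congr_ae (Eventually.of_forall fun x => congrArg (fun t => conj (c x) * t)
    (pf_low vol K h v1 w x))

theorem inner_scal {c : M → ℂ} {v v1 : MV N} (hv : Cs v.1) (h1 : Cs v1.1)
    (he : ∀ i, ∀ x ∈ (A.e i).source, v.1 i x = c x • v1.1 i x) (w : CS (BN N)) :
    (cH vol K h).inner (lowC K v hv) w =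
      ∫ x, conj (c x) * pf vol (HB K h) (lowC K v1 h1).1 w.1 x ∂(vm vol) := by
  rw [c1_inner]
  refine integral_congr_ae (Eventually.of_forall fun x => ?_)
  have e : (lowC K v hv).1.1 (ix A x) x = c x • (lowC K v1 h1).1.1 (ix A x) x := by
    show (low K N v).1 _ x = c x • (low K N v1).1 _ x
    rw [low_apply, low_apply, he _ x (ix_mem x), Matrix.mulVec_smul, iB_smul]
  beta_reduce
  rw [pf_def, pf_def, e, star_smul, smul_dotProduct, smul_eq_mul, Complex.star_def]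
  ring

/-- data `c ν μ • v₁` with `c ν μ → c₁ ν → c₀` almost everywhere -/
theorem hs_scal (W : WS K h vol Φ lam eps C0) (H : DS K h vol Φ lam eps D κ v) (P : Part A)
    (hcut : Cut K) (hD : 0 ≤ D) {ρ : M → ℝ} (hm : Measurable ρ) (h0 : ∀ x, 0 ≤ ρ x)
    (hb : ∀ C, IsCompact C → ∃ c, ∀ x ∈ C, ρ x ≤ c)
    (hl : ∀ᵐ x ∂(vm vol), ∀ δ > 0, ∀ᶠ ν in atTop, ∃ m, Real.exp (Φ ν m x) ≤ ρ x + δ)
    {v1 : MV N} (h1 : Cs v1.1) {c : ℕ → ℕ → M → ℂ} {c1 : ℕ → M → ℂ} {c0 : M → ℂ}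
    (he : ∀ ν μ i, ∀ x ∈ (A.e i).source, (v ν μ).1 i x = c ν μ x • v1.1 i x)
    (cm : ∀ ν μ, AEStronglyMeasurable (c ν μ) (vm vol)) (cb : ∀ ν μ x, ‖c ν μ x‖ ≤ 1)
    (cm1 : ∀ ν, AEStronglyMeasurable (c1 ν) (vm vol)) (cb1 : ∀ ν x, ‖c1 ν x‖ ≤ 1)
    (cm0 : AEStronglyMeasurable c0 (vm vol)) (cb0 : ∀ x, ‖c0 x‖ ≤ 1)
    (l1 : ∀ ν, ∀ᵐ x ∂(vm vol), Tendsto (fun μ => c ν μ x) atTop (𝓝 (c1 ν x)))
    (l0 : ∀ᵐ x ∂(vm vol), Tendsto (fun ν => c1 ν x) atTop (𝓝 (c0 x))) (u : CS (BN N)) :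
    ‖lamC vol (HB K h) cm0 cb0 (lowC K v1 h1) (TsC K h u)‖ ^ 2 ≤
      D * ∫ x, ρ x * pq vol (HB K h) (TsC K h u).1 x ∂(vm vol) := by
  refine hs_sing W H P hcut hD hm h0 hb hl u fun δ hδ => ?_
  have t0 := tendsto_lamC vol (HB K h) cm1 cb1 l0 (lowC K v1 h1) (TsC K h u)
  filter_upwards [Metric.tendsto_nhds.1 t0 _ (half_pos hδ)] with ν hν
  have t1 := tendsto_lamC vol (HB K h) (cm ν) (cb ν) (l1 ν) (lowC K v1 h1) (TsC K h u)
  refine Eventually.frequently ?_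
  filter_upwards [Metric.tendsto_nhds.1 t1 _ (half_pos hδ)] with μ hμ
  rw [inner_scal (H.vc ν μ) h1 (he ν μ), lamC_apply, ← dist_eq_norm]
  exact (dist_triangle _ _ _).trans (by linarith)

/-- Hahn-Banach: a functional bounded on the range of `δ` splits -/
theorem hahn_Ts {ρ : M → ℝ} (hm : Measurable ρ) (h0 : ∀ x, 0 ≤ ρ x)
    (hb : ∀ C, IsCompact C → ∃ c, ∀ x ∈ C, ρ x ≤ c) (hD : 0 ≤ D) (l : CS (BN N) →ₗ[ℂ] ℂ)
    (hl : ∀ u, ‖l (TsC K h u)‖ ^ 2 ≤ D * ∫ x, ρ x * pq vol (HB K h) (TsC K h u).1 x ∂(vm vol)) :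
    ∃ Y : CS (BN N) →ₗ[ℂ] ℂ, (∀ u, Y (TsC K h u) = l (TsC K h u)) ∧
      ∀ w, ‖Y w‖ ^ 2 ≤ D * ∫ x, ρ x * pq vol (HB K h) w.1 x ∂(vm vol) := by
  have e : ∀ w : CS (BN N), (Real.sqrt D * Jet.Abs.pn (pcore vol (HB K h) hm h0 hb) w) ^ 2 =
      D * ∫ x, ρ x * pq vol (HB K h) w.1 x ∂(vm vol) := fun w => by
    rw [mul_pow, Real.sq_sqrt hD, Jet.Abs.pn_sq]
    show D * (ipw vol (HB K h) ρ w w).re = _
    rw [ipw_self, Complex.ofReal_re]
  obtain ⟨Y, h1, h2⟩ := Jet.Abs.hahn (pcore vol (HB K h) hm h0 hb) (LinearMap.range (TsC K h)) l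
    (Real.sqrt_nonneg D) (by
      rintro _ ⟨u, rfl⟩
      refine (abs_le_of_sq_le_sq' ?_ (mul_nonneg (Real.sqrt_nonneg _) (Jet.Abs.pn_nonneg _ _))).2
      rw [e]
      exact hl u)
  refine ⟨Y, fun u => h1 _ ⟨u, rfl⟩, fun w => ?_⟩
  rw [← e]
  exact pow_le_pow_left₀ (norm_nonneg _) (h2 w) 2

/-- **step (1) of JET**: `⟨c₀ v₁, ·⟩ = Λ + Y`, `Λ ∘ δ = 0`, `|Y w|² ≤ D ∫ ρ |w|²` -/
theorem hs_hahn (W : WS K h vol Φ lam eps C0) (H : DS K h vol Φ lam eps D κ v) (P : Part A)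
    (hcut : Cut K) (hD : 0 ≤ D) {ρ : M → ℝ} (hm : Measurable ρ) (h0 : ∀ x, 0 ≤ ρ x)
    (hb : ∀ C, IsCompact C → ∃ c, ∀ x ∈ C, ρ x ≤ c)
    (hl : ∀ᵐ x ∂(vm vol), ∀ δ > 0, ∀ᶠ ν in atTop, ∃ m, Real.exp (Φ ν m x) ≤ ρ x + δ)
    {v1 : MV N} (h1 : Cs v1.1) {c : ℕ → ℕ → M → ℂ} {c0 : M → ℂ}
    (he : ∀ ν μ i, ∀ x ∈ (A.e i).source, (v ν μ).1 i x = c ν μ x • v1.1 i x)
    (cm : ∀ ν μ, AEStronglyMeasurable (c ν μ) (vm vol)) (cb : ∀ ν μ x, ‖c ν μ x‖ ≤ 1)
    (cm0 : AEStronglyMeasurable c0 (vm vol)) (cb0 : ∀ x, ‖c0 x‖ ≤ 1)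
    (l1 : ∀ ν, ∀ᵐ x ∂(vm vol), Tendsto (fun μ => c ν μ x) atTop (𝓝 (c0 x))) :
    ∃ Λ Y : CS (BN N) →ₗ[ℂ] ℂ, (∀ u, Λ (TsC K h u) = 0) ∧
      (∀ (w : MV N) (hw : Cs w.1), Λ (lowC K w hw) =
        ∫ x, conj (c0 x) * gl vol (inG K h w.1 v1.1) x ∂(vm vol) - Y (lowC K w hw)) ∧
      ∀ (w : MV N) (hw : Cs w.1), ‖Y (lowC K w hw)‖ ^ 2 ≤
        D * ∫ x, ρ x * (gl vol (inG K h w.1 w.1) x).re ∂(vm vol) := by
  obtain ⟨Y, y1, y2⟩ := hahn_Ts hm h0 hb hD (lamC vol (HB K h) cm0 cb0 (lowC K v1 h1)) fun u =>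
    hs_scal W H P hcut hD hm h0 hb hl h1 he cm cb (fun _ => cm0) (fun _ => cb0) cm0 cb0 l1
      (Eventually.of_forall fun _ => tendsto_const_nhds) u
  refine ⟨lamC vol (HB K h) cm0 cb0 (lowC K v1 h1) - Y, Y, fun u => ?_, fun w hw => ?_,
    fun w hw => (y2 _).trans (le_of_eq ?_)⟩
  · rw [LinearMap.sub_apply, y1, sub_self]
  · rw [LinearMap.sub_apply, lamC_low]
  · congr 1
    exact integral_congr_ae (Eventually.of_forall fun x =>
      congrArg (fun t => ρ x * Complex.re t) (pf_low vol K h w w x))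

end

end Crest.Agent.X261.Hs
end

-- ▼ part X261/Hs/G

/-!
# X261 / Hs (helper68): step (1) of JET

* `Ap` : smooth approximation of a singular weight;
* `ws_psi` : the weights `N₀ g + log (e^f + e^g)`;
* `step1` : the functional `Λ = ⟨v₁, ·⟩ - Y` which kills the range of `δ`.
-/

set_option autoImplicit false
set_option linter.unusedSectionVars false
set_option linter.style.haveILetI false

open Set Filter Topology Complex MeasureTheory
open scoped ContDiff Matrix ComplexConjugate ComplexOrder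

namespace Crest.Agent.X261.Hs

open Crest.Agent.R275 Crest.Agent.R275.Geo Crest.Agent.R275.Pai323 Crest.Agent.R275.Core144
open Crest.Agent.R273.Defs_333 Crest.Agent.R273.HM_333 Crest.Agent.R273.Kah_333
open Crest.Agent.R273.Vm_333 Crest.Agent.R273.NormC_505
open Crest.Agent.R273.Fock_243
open Crest.Agent.R273.LamN127 Crest.Agent.R273.DVec_733 Crest.Agent.R273.DMet_733
open Crest.Agent.R273.DMetB_733 Crest.Agent.R273.BKNa_37 Crest.Agent.R273.BKNb_37
open Crest.Agent.R273.HDN_505 (HB HB_pos)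
open Crest.Agent.T223.Hm (gl ix ix_mem Cs Cut hq gl_eq gl_sm gl_congr integral_gl)
open Crest.Agent.X261.Hc (Cq hq_eq_qf)
open Crest.Agent.X261.Jet.HL (Th WS nW pr)
open Crest.Agent.X277.AN (qf gf gq SX sx_of_sm sm_of_sx qx_conv db_fsm)
open Crest.Agent.X277.AN.Horm (cs_meas)

noncomputable section

/-! ### functions of one variable -/

/-- the convex function `N₀ t + log (1 + e^t)` -/
def kap (N0 : ℝ) (t : ℝ) : ℝ := N0 * t + Real.log (1 + Real.exp t)

theorem kap_cd (N0 : ℝ) : ContDiff ℝ ∞ (kap N0) :=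
  (contDiff_const.mul contDiff_id).add
    ((contDiff_const.add Real.contDiff_exp).log fun t => by positivity)

theorem kap_der (N0 t : ℝ) : HasDerivAt (kap N0) (N0 + Real.sigmoid t) t := by
  have h1 := ((Real.hasDerivAt_exp t).const_add 1).log (by positivity)
  have h2 := ((hasDerivAt_id t).const_mul N0).add h1
  have e : N0 * 1 + Real.exp t / (1 + Real.exp t) = N0 + Real.sigmoid t := by
    rw [Real.sigmoid_def, Real.exp_neg]
    have := Real.exp_pos t
    field_simp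
    ring
  rw [e] at h2
  exact h2

theorem kap_eq (N0 s t : ℝ) :
    (N0 + 1) * s + kap N0 (t - s) = N0 * t + Real.log (Real.exp s + Real.exp t) := by
  have e : Real.exp s + Real.exp t = Real.exp s * (1 + Real.exp (t - s)) := by
    rw [mul_add, mul_one, ← Real.exp_add, add_sub_cancel]
  rw [e, Real.log_mul (Real.exp_pos _).ne' (by positivity), Real.log_exp, kap]
  ring

theorem exp_kap (N0 s t : ℝ) : Real.exp ((N0 + 1) * s + kap N0 (t - s)) =
    Real.exp (N0 * t) * (Real.exp s + Real.exp t) := by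
  rw [kap_eq, Real.exp_add, Real.exp_log (by positivity)]

theorem kap_mono {N0 s t s' t' : ℝ} (h0 : 0 ≤ N0) (hs : s ≤ s') (ht : t ≤ t') :
    (N0 + 1) * s + kap N0 (t - s) ≤ (N0 + 1) * s' + kap N0 (t' - s') := by
  rw [kap_eq, kap_eq]
  gcongr

/-- the cut-off function: `1` on `(-∞, -a-2]`, `0` on `[-a-1, ∞)` -/
def chi (a t : ℝ) : ℝ := Real.smoothTransition (-a - 1 - t)

theorem chi_cd (a : ℝ) : ContDiff ℝ ∞ (chi a) :=
  Real.smoothTransition.contDiff.comp (contDiff_const.sub contDiff_id)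

theorem chi_zero {a t : ℝ} (h : -a - 1 ≤ t) : chi a t = 0 :=
  Real.smoothTransition.zero_of_nonpos (by linarith)

theorem chi_one {a t : ℝ} (h : t ≤ -a - 2) : chi a t = 1 :=
  Real.smoothTransition.one_of_one_le (by linarith)

theorem chi_norm (a t : ℝ) : ‖(chi a t : ℂ)‖ ≤ 1 := by
  rw [Complex.norm_real, chi, Real.norm_of_nonneg (Real.smoothTransition.nonneg _)]
  exact Real.smoothTransition.le_one _

theorem chi_norm' (a t : ℝ) : ‖1 - (chi a t : ℂ)‖ ≤ 1 := by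
  have h1 : 0 ≤ chi a t := Real.smoothTransition.nonneg _
  have h2 : chi a t ≤ 1 := Real.smoothTransition.le_one _
  rw [← Complex.ofReal_one, ← Complex.ofReal_sub, Complex.norm_real,
    Real.norm_of_nonneg (by linarith)]
  linarith

theorem chi_der0 {a t : ℝ} (h : t ∉ Icc (-a - 2) (-a - 1)) : deriv (chi a) t = 0 := by
  rw [mem_Icc, not_and_or, not_le, not_le] at h
  rcases h with h | h
  · have e : chi a =ᶠ[𝓝 t] fun _ => 1 := by
      filter_upwards [Iio_mem_nhds h] with s hs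
      exact chi_one (le_of_lt hs)
    rw [e.deriv_eq, deriv_const]
  · have e : chi a =ᶠ[𝓝 t] fun _ => 0 := by
      filter_upwards [Ioi_mem_nhds h] with s hs
      exact chi_zero (le_of_lt hs)
    rw [e.deriv_eq, deriv_const]

theorem chi_kap (N0 a : ℝ) : ∃ C, 0 ≤ C ∧ ∀ t, deriv (chi a) t ^ 2 * Real.exp (-kap N0 t) ≤
    C * (Real.sigmoid t * (1 - Real.sigmoid t)) := by
  have hp : ∀ t, 0 < Real.sigmoid t * (1 - Real.sigmoid t) := fun t =>
    mul_pos (Real.sigmoid_pos t) (sub_pos.2 (Real.sigmoid_lt_one t))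
  have hc : Continuous fun t => deriv (chi a) t ^ 2 * Real.exp (-kap N0 t) /
      (Real.sigmoid t * (1 - Real.sigmoid t)) :=
    ((((chi_cd a).continuous_deriv (by simp)).pow 2).mul
      (kap_cd N0).continuous.neg.rexp).div
      (continuous_sigmoid.mul (continuous_const.sub continuous_sigmoid)) fun t => (hp t).ne'
  obtain ⟨C, hC⟩ := (isCompact_Icc (a := -a - 2) (b := -a - 1)).bddAbove_image hc.continuousOn
  refine ⟨max C 0, le_max_right _ _, fun t => ?_⟩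
  by_cases ht : t ∈ Icc (-a - 2) (-a - 1)
  · rw [← div_le_iff₀ (hp t)]
    exact (hC ⟨t, ht, rfl⟩).trans (le_max_left _ _)
  · rw [chi_der0 ht]
    have := mul_nonneg (le_max_right C 0) (hp t).le
    simpa using this

variable {n : ℕ} {M : Type} [TopologicalSpace M] {A : Atl n M} {N L : LB A}

/-- multiplication of a polyvector field by a smooth function -/
def mulV {c : M → ℂ} (hc : A.Sm c) (v : MV N) : MV N :=
  ⟨fun i x => c x • v.1 i x, fun i T => (hc i).mul (v.2.1 i T),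
    fun i x hx => by
      beta_reduce
      rw [v.2.2.1 i x hx, smul_zero],
    fun i j x hx => by
      beta_reduce
      rw [v.2.2.2 i j x hx, Matrix.mulVec_smul]⟩

theorem mulV_apply {c : M → ℂ} (hc : A.Sm c) (v : MV N) (i : A.ι) (x : M) :
    (mulV hc v).1 i x = c x • v.1 i x := rfl

theorem mulV_cs {c : M → ℂ} (hc : A.Sm c) {v : MV N} (hv : Cs v.1) : Cs (mulV hc v).1 := by
  obtain ⟨C, hC, h0⟩ := hv
  exact ⟨C, hC, fun i x hx => by rw [mulV_apply, h0 i x hx, smul_zero]⟩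

theorem sm_compC {φ : ℝ → ℝ} (hφ : ContDiff ℝ ∞ φ) {ψ : M → ℝ} (hψ : A.Sm ψ) :
    A.Sm fun x => (φ (ψ x) : ℂ) := fun i =>
  Complex.ofRealCLM.contDiff.comp_contDiffOn (hφ.comp_contDiffOn (hψ i))

theorem dbV_mulV {φ : ℝ → ℝ} (hφ : ContDiff ℝ ∞ φ) {ψ : M → ℝ} (hψ : A.Sm ψ) (v : MV N)
    {i : A.ι} {x : M} (hx : x ∈ (A.e i).source) (k : Fin n) :
    dbV (mulV (sm_compC hφ hψ) v).1 i k x =
      ((deriv φ (ψ x) : ℝ) * conj (gf A ψ i x k) : ℂ) • v.1 i x + (φ (ψ x) : ℂ) • dbV v.1 i k x := by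
  funext T
  exact db_fsm (s := fun j y => v.1 j y T) (sx_of_sm hψ hx) hx
    ((hφ.differentiable (by simp) _).hasDerivAt)
    (((v.2.1 i T).contDiffAt ((A.e i).open_target.mem_nhds ((A.e i).map_source hx))).differentiableAt
      (by simp)) k

/-- curvature of `b f + k (g - f)` -/
theorem Th_conv (K : Kah A) {L' : LB A} (h : HM L) (h' : HM L') {b : ℝ} {i : A.ι} {x : M}
    (hx : x ∈ (A.e i).source) {ξ : Fin n → ℂ} (hcur : hq (cur h' i x) ξ = b * hq (cur h i x) ξ)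
    {f g : M → ℝ} (hf : A.Sm f) (hg : A.Sm g) {k k' : ℝ → ℝ} {d2 : ℝ} (hk : ContDiff ℝ ∞ k)
    (h1 : ∀ s, HasDerivAt k (k' s) s) (h2 : HasDerivAt k' d2 (g x - f x)) (e : ℝ) :
    Th K h' (fun y => b * f y + k (g y - f y)) (b * e) i x ξ =
      (b - k' (g x - f x)) * Th K h f e i x ξ + k' (g x - f x) * Th K h g e i x ξ +
        d2 * gq A (fun y => g y - f y) i x ξ := by
  simp only [Th, hq_eq_qf] at hcur ⊢
  rw [qx_conv (sx_of_sm hf hx) (sx_of_sm hg hx) hx hk.contDiffAt (Eventually.of_forall h1) h2, hcur]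
  ring

theorem Th_mono (K : Kah A) (h : HM L) (f : M → ℝ) {e e' : ℝ} (he : e ≤ e') {i : A.ι} {x : M}
    (hx : x ∈ (A.e i).source) (ξ : Fin n → ℂ) : Th K h f e i x ξ ≤ Th K h f e' i x ξ := by
  have h0 : 0 ≤ hq (K.g i x) ξ :=
    (Complex.le_def.1 ((K.pos i x hx).transpose.posSemidef.dotProduct_mulVec_nonneg ξ)).1
  exact add_le_add le_rfl (mul_le_mul_of_nonneg_right he h0)

variable [Countable A.ι] [T2Space M] [MeasurableSpace M] [BorelSpace M]

theorem pf_cs {B : FBun A} (vol : HM (KB A)⁻¹) (h : HDen B) (u w : Sec B) (x : M) :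
    ‖pf vol h u w x‖ ^ 2 ≤ pq vol h u x * pq vol h w x := by
  have hv := (inv_pos.2 (vol.pos _ x (ix_mem (A := A) x))).le
  rw [pq, pq, pf_def, pf_def, pf_def, norm_mul, Complex.norm_real, Real.norm_of_nonneg hv, mul_pow,
    Complex.re_ofReal_mul, Complex.re_ofReal_mul]
  refine (mul_le_mul_of_nonneg_left (cs_psd (h.psd _ x (ix_mem x)) _ _) (sq_nonneg _)).trans
    (le_of_eq ?_)
  ring

/-- weighted Cauchy-Schwarz inequality for `lamC` -/
theorem lamC_le {B : FBun A} (vol : HM (KB A)⁻¹) (h : HDen B) {c : M → ℂ}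
    (hc : AEStronglyMeasurable c (vm vol)) (hb : ∀ x, ‖c x‖ ≤ 1) (g w : CS B) {a ρ : M → ℝ}
    (ha0 : ∀ x, 0 ≤ a x) (ha : Integrable (fun x => a x * pq vol h g.1 x) (vm vol))
    (hρ0 : ∀ x, 0 ≤ ρ x) (hρ : Integrable (fun x => ρ x * pq vol h w.1 x) (vm vol))
    (hle : ∀ᵐ x ∂(vm vol), ‖c x‖ ^ 2 ≤ a x * ρ x) :
    ‖lamC vol h hc hb g w‖ ^ 2 ≤
      (∫ x, a x * pq vol h g.1 x ∂(vm vol)) * ∫ x, ρ x * pq vol h w.1 x ∂(vm vol) := by
  have h0 : ∀ x, 0 ≤ a x * pq vol h g.1 x := fun x => mul_nonneg (ha0 x) (pq_nonneg vol h _ x)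
  refine cs_meas (integrable_cpf vol h hc hb g w) hρ
    (fun x => mul_nonneg (hρ0 x) (pq_nonneg vol h _ x)) ha.1.aemeasurable (integral_nonneg h0)
    (ofReal_integral_eq_lintegral_ofReal ha (Eventually.of_forall h0)).ge ?_
  filter_upwards [hle] with x hx
  rw [norm_mul, Complex.norm_conj, mul_pow]
  refine (mul_le_mul hx (pf_cs vol h _ _ x) (sq_nonneg _) (mul_nonneg (ha0 x) (hρ0 x))).trans
    (le_of_eq ?_)
  ring

/-- smooth decreasing approximations `f ν μ → u + cr ν` of the singular weight `u` -/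
structure Ap (K : Kah A) (h : HM L) (vol : HM (KB A)⁻¹) (u : M → ℝ) (f lam : ℕ → ℕ → M → ℝ)
    (eps : ℕ → ℝ) (cr : ℕ → M → ℝ) (C0 : ℝ) : Prop extends WS K h vol f lam eps C0 where
  um : Measurable u
  ub : ∀ x, u x ≤ C0
  ul : ∀ ν, ∀ᵐ x ∂(vm vol), Tendsto (fun μ => f ν μ x) atTop (𝓝 (u x + cr ν x))
  c0 : ∀ ν x, 0 ≤ cr ν x
  cl : ∀ x, Tendsto (fun ν => cr ν x) atTop (𝓝 0)

variable {K : Kah A} {h : HM L} {vol : HM (KB A)⁻¹} {φ S : M → ℝ} {f g lf lg : ℕ → ℕ → M → ℝ}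
  {eps : ℕ → ℝ} {cr : ℕ → M → ℝ} {C0 : ℝ}

theorem Ap.le_f (F : Ap K h vol φ f lf eps cr C0) (ν μ : ℕ) : ∀ᵐ x ∂(vm vol), φ x ≤ f ν μ x := by
  filter_upwards [F.ul ν] with x hx
  have h1 := (F.anti ν x).le_of_tendsto hx μ
  linarith [F.c0 ν x]

/-- the weights of step (1) -/
def psi (N0 : ℝ) (f g : ℕ → ℕ → M → ℝ) (ν μ : ℕ) (x : M) : ℝ :=
  (N0 + 1) * f ν μ x + kap N0 (g ν μ x - f ν μ x)

/-- the losses of step (1) -/
def lmx (b : ℝ) (lf lg : ℕ → ℕ → M → ℝ) (ν μ : ℕ) (x : M) : ℝ := b * max (lf ν μ x) (lg ν μ x)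

theorem psi_ge (F : WS K h vol f lf eps C0) (G : WS K h vol g lg eps C0) {N0 : ℝ} (h0 : 0 ≤ N0)
    {L' : LB A} (h' : HM L') (hcur : ∀ i, ∀ x ∈ (A.e i).source, ∀ ξ,
      hq (cur h' i x) ξ = (N0 + 1) * hq (cur h i x) ξ) (ν μ : ℕ) {i : A.ι} {x : M}
    (hx : x ∈ (A.e i).source) (ξ : Fin n → ℂ) :
    Real.sigmoid (g ν μ x - f ν μ x) * (1 - Real.sigmoid (g ν μ x - f ν μ x)) *
      gq A (fun y => g ν μ y - f ν μ y) i x ξ ≤
    Th K h' (psi N0 f g ν μ) ((N0 + 1) * eps ν + lmx (N0 + 1) lf lg ν μ x) i x ξ := by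
  have e := Th_conv K h h' hx (hcur i x hx ξ) (F.sm ν μ) (G.sm ν μ) (kap_cd N0) (kap_der N0)
    ((Real.hasDerivAt_sigmoid (g ν μ x - f ν μ x)).const_add N0)
    (eps ν + max (lf ν μ x) (lg ν μ x))
  rw [lmx, ← mul_add]
  refine le_trans ?_ e.ge
  have p1 := (F.pos ν μ i x hx ξ).trans (Th_mono K h _
    (add_le_add le_rfl (le_max_left (lf ν μ x) (lg ν μ x))) hx ξ)
  have p2 := (G.pos ν μ i x hx ξ).trans (Th_mono K h _
    (add_le_add le_rfl (le_max_right (lf ν μ x) (lg ν μ x))) hx ξ)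
  have s1 := Real.sigmoid_le_one (g ν μ x - f ν μ x)
  have s2 := Real.sigmoid_nonneg (g ν μ x - f ν μ x)
  have m1 := mul_nonneg (show 0 ≤ N0 + 1 - (N0 + Real.sigmoid (g ν μ x - f ν μ x)) by linarith) p1
  have m2 := mul_nonneg (add_nonneg h0 s2) p2
  linarith

theorem ws_psi (F : WS K h vol f lf eps C0) (G : WS K h vol g lg eps C0) {N0 : ℝ} (h0 : 0 ≤ N0)
    {L' : LB A} (h' : HM L') (hcur : ∀ i, ∀ x ∈ (A.e i).source, ∀ ξ,
      hq (cur h' i x) ξ = (N0 + 1) * hq (cur h i x) ξ) :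
    WS K h' vol (psi N0 f g) (lmx (N0 + 1) lf lg) (fun ν => (N0 + 1) * eps ν)
      ((N0 + 1) * C0 + kap N0 (C0 - C0)) where
  sm ν μ i := (contDiffOn_const.mul (F.sm ν μ i)).add
    ((kap_cd N0).comp_contDiffOn ((G.sm ν μ i).sub (F.sm ν μ i)))
  anti ν x _ _ hab := kap_mono h0 (F.anti ν x hab) (G.anti ν x hab)
  le ν x := kap_mono h0 (F.le ν x) (G.le ν x)
  lm ν μ := ((F.lm ν μ).max (G.lm ν μ)).const_mul _
  l0 ν μ x := mul_nonneg (by linarith) ((F.l0 ν μ x).trans (le_max_left _ _))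
  lb ν := by
    obtain ⟨a, ha⟩ := F.lb ν
    obtain ⟨b, hb⟩ := G.lb ν
    exact ⟨(N0 + 1) * max a b, fun μ x =>
      mul_le_mul_of_nonneg_left (max_le_max (ha μ x) (hb μ x)) (by linarith)⟩
  lim ν := by
    filter_upwards [F.lim ν, G.lim ν] with x h1 h2
    have h3 := (h1.max h2).const_mul (N0 + 1)
    rwa [max_self, mul_zero] at h3
  e0 ν := mul_nonneg (by linarith) (F.e0 ν)
  elim := by
    have h3 := F.elim.const_mul (N0 + 1)
    rwa [mul_zero] at h3
  pos ν μ i x hx ξ := le_trans (mul_nonneg (mul_nonneg (Real.sigmoid_nonneg _)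
    (sub_nonneg.2 (Real.sigmoid_le_one _))) (sq_nonneg _)) (psi_ge F G h0 h' hcur ν μ hx ξ)

theorem sq_add_le {a b : ℂ} {p q : ℝ} (ha : ‖a‖ ^ 2 ≤ p) (hb : ‖b‖ ^ 2 ≤ q) :
    ‖a + b‖ ^ 2 ≤ 2 * p + 2 * q := by
  have h1 := pow_le_pow_left₀ (norm_nonneg _) (norm_add_le a b) 2
  nlinarith [sq_nonneg (‖a‖ - ‖b‖)]

theorem pq_low (K : Kah A) (h' : HM ((KB A)⁻¹ * N)) (w : MV N) (hw : Cs w.1) (x : M) :
    pq vol (HB K h') (lowC K w hw).1 x = (gl vol (inG K h' w.1 w.1) x).re :=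
  congrArg Complex.re (pf_low vol K h' w w x)

/-- **step (1) of JET** -/
theorem step1 (P : Part A) (hcut : Cut K) (F : Ap K h vol φ f lf eps cr C0)
    (G : Ap K h vol S g lg eps cr C0) {N0 : ℝ} (h0 : 0 ≤ N0) (h' : HM ((KB A)⁻¹ * N))
    (hcur : ∀ i, ∀ x ∈ (A.e i).source, ∀ ξ, hq (cur h' i x) ξ = (N0 + 1) * hq (cur h i x) ξ)
    (hle : ∀ᵐ x ∂(vm vol), S x ≤ φ x) (v1 : MV N) (h1 : Cs v1.1) (W : Set M)
    (hW : ∀ i, ∀ x ∈ W, x ∈ (A.e i).source → ∀ k, dbV v1.1 i k x = 0) (a : ℝ)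
    (off : ∀ ν, ∀ᶠ μ in atTop, ∀ x ∉ W, f ν μ x - a ≤ g ν μ x)
    (hint : Integrable (fun x => Real.exp (-((N0 + 1) * φ x)) *
      (gl vol (inG K h' v1.1 v1.1) x).re) (vm vol)) :
    ∃ D, 0 ≤ D ∧ ∃ Λ Y : CS (BN N) →ₗ[ℂ] ℂ, (∀ u, Λ (TsC K h' u) = 0) ∧
      (∀ (w : MV N) (hw : Cs w.1), Λ (lowC K w hw) = pr K h' vol v1.1 w.1 - Y (lowC K w hw)) ∧
      (∀ (w : MV N) (hw : Cs w.1), ‖Y (lowC K w hw)‖ ^ 2 ≤
        D * ∫ x, Real.exp (N0 * S x) * (gl vol (inG K h' w.1 w.1) x).re ∂(vm vol)) ∧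
      ∀ (w : MV N) (hw : Cs w.1) (U : M → ℝ), Continuous U →
        (∀ᵐ x ∂(vm vol), (N0 + 1) * φ x ≤ U x) →
        ‖Λ (lowC K w hw)‖ ^ 2 ≤ D * nW K h' vol U w.1 := by
  classical
  obtain ⟨C, hC0, hC⟩ := chi_kap N0 a
  have hψ : ∀ ν μ, A.Sm fun x => g ν μ x - f ν μ x := fun ν μ i => (G.sm ν μ i).sub (F.sm ν μ i)
  have hi : Integrable (fun x => Real.exp (-((N0 + 1) * φ x)) *
      pq vol (HB K h') (lowC K v1 h1).1 x) (vm vol) := by simpa only [pq_low] using hint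
  set I := ∫ x, Real.exp (-((N0 + 1) * φ x)) * pq vol (HB K h') (lowC K v1 h1).1 x ∂(vm vol)
    with hI
  have hi0 : ∀ x, 0 ≤ Real.exp (-((N0 + 1) * φ x)) * pq vol (HB K h') (lowC K v1 h1).1 x :=
    fun x => mul_nonneg (Real.exp_pos _).le (pq_nonneg vol _ _ x)
  have hI0 : 0 ≤ I := integral_nonneg hi0
  set Ok : ℕ → ℕ → Prop := fun ν μ => ∀ x ∉ W, f ν μ x - a ≤ g ν μ x with hOk
  set v : ℕ → ℕ → MV N := fun ν μ =>
    if Ok ν μ then mulV (sm_compC (chi_cd a) (hψ ν μ)) v1 else 0 with hv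
  set c : ℕ → ℕ → M → ℂ := fun ν μ x =>
    if Ok ν μ then (chi a (g ν μ x - f ν μ x) : ℂ) else 0 with hc
  have H : DS K h' vol (psi N0 f g) (lmx (N0 + 1) lf lg) (fun ν => (N0 + 1) * eps ν) (C * I)
      (fun _ _ x => C * (Real.exp (-((N0 + 1) * φ x)) * pq vol (HB K h') (lowC K v1 h1).1 x)) v := by
    refine ⟨fun ν μ => ?_, fun _ _ => (hi.const_mul C).1.aemeasurable,
      fun _ _ x => mul_nonneg hC0 (hi0 x), fun _ _ => ?_, fun ν μ => ?_⟩
    · simp only [hv]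
      split_ifs
      · exact mulV_cs _ h1
      · exact ⟨∅, isCompact_empty, fun _ _ _ => rfl⟩
    · rw [hI, ← integral_const_mul]
      exact (ofReal_integral_eq_lintegral_ofReal (hi.const_mul C)
        (Eventually.of_forall fun x => mul_nonneg hC0 (hi0 x))).ge
    · filter_upwards [F.le_f ν μ] with x hfx
      have hx := ix_mem (A := A) x
      set i := ix A x with hi'
      have hp := (ws_psi F.toWS G.toWS h0 h' hcur).pos ν μ i x hx
      have hv0 := vol.pos i x hx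
      by_cases ok : Ok ν μ
      · refine ⟨i, hx, fun k => (deriv (chi a) (g ν μ x - f ν μ x) : ℝ) *
          conj (gf A (fun y => g ν μ y - f ν μ y) i x k), v1.1 i x, fun k => ?_, fun ξ => ?_⟩
        · simp only [hv, if_pos ok]
          rw [dbV_mulV (chi_cd a) (hψ ν μ) v1 hx k]
          by_cases hxW : x ∈ W
          · rw [hW i x hxW hx k, smul_zero, add_zero]
          · rw [chi_zero (t := g ν μ x - f ν μ x) (by linarith [ok x hxW]), Complex.ofReal_zero,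
              zero_smul, add_zero]
        · have e1 : ‖star ξ ⬝ᵥ fun k => ((deriv (chi a) (g ν μ x - f ν μ x) : ℝ) : ℂ) *
              conj (gf A (fun y => g ν μ y - f ν μ y) i x k)‖ ^ 2 =
              deriv (chi a) (g ν μ x - f ν μ x) ^ 2 * gq A (fun y => g ν μ y - f ν μ y) i x ξ := by
            rw [gq, ← Complex.norm_conj (∑ _, _), ← sq_abs (deriv _ _), ← mul_pow,
              ← Real.norm_eq_abs, ← Complex.norm_real, ← norm_mul, map_sum, Finset.mul_sum]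
            congr 2
            refine Finset.sum_congr rfl fun k _ => ?_
            simp only [Pi.star_apply, Complex.star_def, map_mul]
            ring
          have e2 : pq vol (HB K h') (lowC K v1 h1).1 x = (vol.w i x)⁻¹ * (h'.w i x *
              (star (v1.1 i x) ⬝ᵥ (GK K i x *ᵥ v1.1 i x)).re) := by
            rw [pq_eq vol _ _ hx]
            have h2 := R273.Lim_505.HB_hd K h' v1 v1 hx
            rw [show (HB K h').hd (lowC K v1 h1).1.1 (lowC K v1 h1).1.1 i x = _ from h2, inG,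
              Complex.re_ofReal_mul]
            rfl
          have e3 : 0 ≤ h'.w i x * (star (v1.1 i x) ⬝ᵥ (GK K i x *ᵥ v1.1 i x)).re := by
            have := mul_nonneg hv0.le (pq_nonneg vol (HB K h') (lowC K v1 h1).1 x)
            rwa [e2, mul_inv_cancel_left₀ hv0.ne'] at this
          have e4 := psi_ge F.toWS G.toWS h0 h' hcur ν μ hx ξ
          have e5 : Real.exp (-psi N0 f g ν μ x) ≤
              Real.exp (-((N0 + 1) * φ x)) * Real.exp (-kap N0 (g ν μ x - f ν μ x)) := by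
            rw [← Real.exp_add, psi]
            refine Real.exp_le_exp.2 ?_
            have := mul_le_mul_of_nonneg_left hfx (show 0 ≤ N0 + 1 by linarith)
            linarith
          have e6 := hC (g ν μ x - f ν μ x)
          have e7 : 0 ≤ gq A (fun y => g ν μ y - f ν μ y) i x ξ := sq_nonneg _
          rw [e1, e2]
          generalize h'.w i x = hw at e3 ⊢
          generalize (star (v1.1 i x) ⬝ᵥ (GK K i x *ᵥ v1.1 i x)).re = t at e3 ⊢
          generalize Th K h' _ _ i x ξ = T at e4 ⊢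
          generalize gq A _ i x ξ = q at e4 e7 ⊢
          generalize deriv (chi a) _ = d at e6 ⊢
          generalize Real.sigmoid _ * (1 - Real.sigmoid _) = s at e4 e6
          have e8 := Real.exp_pos (-((N0 + 1) * φ x))
          generalize Real.exp (-((N0 + 1) * φ x)) = E at e5 e8 ⊢
          generalize Real.exp (-kap N0 _) = E' at e5 e6
          generalize Real.exp (-psi N0 f g ν μ x) = E'' at e5 ⊢
          calc hw * E'' * t * (d ^ 2 * q) = E'' * (hw * t * (d ^ 2 * q)) := by ring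
            _ ≤ E * E' * (hw * t * (d ^ 2 * q)) :=
              mul_le_mul_of_nonneg_right e5 (mul_nonneg e3 (mul_nonneg (sq_nonneg _) e7))
            _ = E * (hw * t) * (d ^ 2 * E' * q) := by ring
            _ ≤ E * (hw * t) * (C * s * q) := mul_le_mul_of_nonneg_left
              (mul_le_mul_of_nonneg_right e6 e7) (mul_nonneg e8.le e3)
            _ = E * (hw * t) * C * (s * q) := by ring
            _ ≤ E * (hw * t) * C * T := mul_le_mul_of_nonneg_left e4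
              (mul_nonneg (mul_nonneg e8.le e3) hC0)
            _ = _ := by field_simp
      · refine ⟨i, hx, 0, 0, fun k => ?_, fun ξ => ?_⟩
        · simp only [hv, if_neg ok]
          funext T
          rw [smul_zero]
          exact T223.Hm.dd_const (s := Complex.I) (a := k) (i := i) (x := x) 0 
        · rw [dotProduct_zero, norm_zero]
          have := mul_nonneg (mul_nonneg (mul_nonneg hC0 (hi0 x)) hv0.le) (hp ξ)
          simpa using this
  set ρ : M → ℝ := fun x => Real.exp ((N0 + 1) * φ x + kap N0 (S x - φ x)) with hρ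
  have ρm : Measurable ρ :=
    ((F.um.const_mul _).add ((kap_cd N0).continuous.measurable.comp (G.um.sub F.um))).exp
  have ρ0 : ∀ x, 0 ≤ ρ x := fun x => (Real.exp_pos _).le
  have ρb : ∀ C', IsCompact C' → ∃ c, ∀ x ∈ C', ρ x ≤ c := fun _ _ =>
    ⟨_, fun x _ => Real.exp_le_exp.2 (kap_mono h0 (F.ub x) (G.ub x))⟩
  have cm0 : Measurable fun x => (chi a (S x - φ x) : ℂ) :=
    Complex.measurable_ofReal.comp ((chi_cd a).continuous.measurable.comp (G.um.sub F.um))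
  have cm1 : Measurable fun x => 1 - (chi a (S x - φ x) : ℂ) := cm0.const_sub 1
  have lψ : ∀ ν, ∀ᵐ x ∂(vm vol), Tendsto (fun μ => g ν μ x - f ν μ x) atTop (𝓝 (S x - φ x)) :=
    fun ν => by
      filter_upwards [F.ul ν, G.ul ν] with x p1 p2
      have p3 := p2.sub p1
      rwa [add_sub_add_right_eq_sub] at p3
  obtain ⟨Y, y1, y2⟩ := hahn_Ts ρm ρ0 ρb (mul_nonneg hC0 hI0)
    (lamC vol (HB K h') cm0.aestronglyMeasurable (fun x => chi_norm a _) (lowC K v1 h1)) fun u =>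
    hs_scal (ws_psi F.toWS G.toWS h0 h' hcur) H P hcut (mul_nonneg hC0 hI0) ρm ρ0 ρb (by
      filter_upwards [ae_all_iff.2 F.ul, ae_all_iff.2 lψ] with x p1 p2 δ hδ
      have t1 : Tendsto (fun ν => Real.exp ((N0 + 1) * (φ x + cr ν x) + kap N0 (S x - φ x))) atTop
          (𝓝 (Real.exp ((N0 + 1) * (φ x + 0) + kap N0 (S x - φ x)))) :=
        ((((F.cl x).const_add _).const_mul _).add_const _).rexp
      rw [add_zero] at t1
      filter_upwards [t1.eventually (eventually_lt_nhds (lt_add_of_pos_right _ hδ))] with ν hν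
      have t2 : Tendsto (fun μ => Real.exp (psi N0 f g ν μ x)) atTop
          (𝓝 (Real.exp ((N0 + 1) * (φ x + cr ν x) + kap N0 (S x - φ x)))) :=
        (((p1 ν).const_mul _).add (((kap_cd N0).continuous.tendsto _).comp (p2 ν))).rexp
      exact ((t2.eventually (eventually_lt_nhds hν)).exists).imp fun m hm => hm.le)
      h1 (c := c) (c1 := fun _ x => (chi a (S x - φ x) : ℂ)) (fun ν μ i x _ => by
        simp only [hv, hc]
        split_ifs
        · rfl
        · rw [zero_smul]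
          rfl) (fun ν μ => by
        simp only [hc]
        split_ifs
        · exact (continuous_of_sm (sm_compC (chi_cd a) (hψ ν μ))).aestronglyMeasurable
        · exact aestronglyMeasurable_const) (fun ν μ x => by
        simp only [hc]
        split_ifs
        · exact chi_norm a _
        · simp) (fun _ => cm0.aestronglyMeasurable) (fun _ x => chi_norm a _)
      cm0.aestronglyMeasurable (fun x => chi_norm a _) (fun ν => by
        filter_upwards [lψ ν] with x hx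
        refine (((Complex.continuous_ofReal.comp (chi_cd a).continuous).tendsto _).comp hx).congr' ?_
        filter_upwards [off ν] with μ hμ
        simp only [hc]
        rw [if_pos hμ]
        rfl) (Eventually.of_forall fun _ => tendsto_const_nhds) u
  set E : ℝ := Real.exp (N0 * (a + 2) + C0) with hE
  have hE0 : 0 < E := Real.exp_pos _
  have hX := Real.exp_pos C0
  refine ⟨2 * (E * I) + 2 * I + 2 * (C * I * (2 * Real.exp C0)) + 2 * (C * I * 2), by positivity,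
    lamC vol (HB K h') cm0.aestronglyMeasurable (fun x => chi_norm a _) (lowC K v1 h1) - Y,
    lamC vol (HB K h') cm1.aestronglyMeasurable (fun x => chi_norm' a _) (lowC K v1 h1) + Y,
    fun u => ?_, fun w hw => ?_, fun w hw => ?_, fun w hw U hU hUl => ?_⟩
  · rw [LinearMap.sub_apply, y1, sub_self]
  · rw [LinearMap.sub_apply, LinearMap.add_apply, pr_low vol K h' v1 w h1 hw, c1_inner,
      ← sub_sub, sub_left_inj, eq_sub_iff_add_eq, lamC_apply, lamC_apply, ← integral_add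
        (integrable_cpf vol _ cm0.aestronglyMeasurable (fun x => chi_norm a _) _ _)
        (integrable_cpf vol _ cm1.aestronglyMeasurable (fun x => chi_norm' a _) _ _)]
    refine integral_congr_ae (Eventually.of_forall fun x => ?_)
    simp only [map_sub, map_one]
    ring
  · have i1 : Integrable (fun x => Real.exp (N0 * S x) * pq vol (HB K h') (lowC K w hw).1 x)
        (vm vol) := integrable_pq vol _ (G.um.const_mul _).exp (fun x => (Real.exp_pos _).le)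
      (fun _ _ => ⟨_, fun x _ => Real.exp_le_exp.2 (mul_le_mul_of_nonneg_left (G.ub x) h0)⟩) _
    simp only [← pq_low K h' w hw]
    set J := ∫ x, Real.exp (N0 * S x) * pq vol (HB K h') (lowC K w hw).1 x ∂(vm vol) with hJ
    have hJ0 : 0 ≤ J := integral_nonneg fun x =>
      mul_nonneg (Real.exp_pos _).le (pq_nonneg vol _ _ x)
    have b1 := lamC_le vol (HB K h') cm1.aestronglyMeasurable (fun x => chi_norm' a _)
      (lowC K v1 h1) (lowC K w hw) (a := fun x => E * Real.exp (-((N0 + 1) * φ x)))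
      (fun x => by positivity) (by simpa only [mul_assoc] using hi.const_mul E)
      (fun x => (Real.exp_pos _).le) i1 (Eventually.of_forall fun x => by
        by_cases hx : S x - φ x ≤ -a - 2
        · rw [chi_one hx, Complex.ofReal_one, sub_self, norm_zero]
          simp only [ne_eq, OfNat.ofNat_ne_zero, not_false_eq_true, zero_pow]
          positivity
        · refine (pow_le_one₀ (norm_nonneg _) (chi_norm' a _)).trans ?_
          rw [hE, ← Real.exp_add, ← Real.exp_add]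
          refine Real.one_le_exp ?_
          have := mul_le_mul_of_nonneg_left (not_le.1 hx).le h0
          linarith [F.ub x])
    simp only [mul_assoc E] at b1
    rw [integral_const_mul, ← hI, ← hJ] at b1
    have b2 : ∫ x, ρ x * pq vol (HB K h') (lowC K w hw).1 x ∂(vm vol) ≤ 2 * Real.exp C0 * J := by
      rw [hJ, ← integral_const_mul]
      refine integral_mono (integrable_pq vol _ ρm ρ0 ρb _) (i1.const_mul _) fun x => ?_
      show ρ x * _ ≤ 2 * Real.exp C0 * (Real.exp (N0 * S x) * _)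
      rw [← mul_assoc]
      refine mul_le_mul_of_nonneg_right ?_ (pq_nonneg vol _ _ x)
      simp only [hρ]
      rw [exp_kap, mul_comm]
      refine mul_le_mul_of_nonneg_right ?_ (Real.exp_pos _).le
      linarith [Real.exp_le_exp.2 (F.ub x), Real.exp_le_exp.2 (G.ub x)]
    have b3 := (y2 (lowC K w hw)).trans (mul_le_mul_of_nonneg_left b2 (mul_nonneg hC0 hI0))
    rw [LinearMap.add_apply]
    refine (sq_add_le b1 b3).trans ?_
    have := mul_nonneg hI0 hJ0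
    have := mul_nonneg hC0 this
    nlinarith
  · have i1 : Integrable (fun x => Real.exp (U x) * pq vol (HB K h') (lowC K w hw).1 x)
        (vm vol) := integrable_pq vol _ hU.measurable.exp (fun x => (Real.exp_pos _).le)
      (fun C' hC' => by
        obtain ⟨b, hb⟩ := hC'.bddAbove_image hU.rexp.continuousOn
        exact ⟨b, fun x hx => hb ⟨x, hx, rfl⟩⟩) _
    rw [nW_low vol K h' U w hw]
    set J := ∫ x, Real.exp (U x) * pq vol (HB K h') (lowC K w hw).1 x ∂(vm vol) with hJ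
    have hJ0 : 0 ≤ J := integral_nonneg fun x =>
      mul_nonneg (Real.exp_pos _).le (pq_nonneg vol _ _ x)
    have b1 := lamC_le vol (HB K h') cm0.aestronglyMeasurable (fun x => chi_norm a _)
      (lowC K v1 h1) (lowC K w hw) (fun x => (Real.exp_pos _).le) hi
      (fun x => (Real.exp_pos _).le) i1 (by
        filter_upwards [hUl] with x hx
        refine (pow_le_one₀ (norm_nonneg _) (chi_norm a _)).trans ?_
        rw [← Real.exp_add]
        exact Real.one_le_exp (by linarith))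
    rw [← hI, ← hJ] at b1
    have b2 : ∫ x, ρ x * pq vol (HB K h') (lowC K w hw).1 x ∂(vm vol) ≤ 2 * J := by
      rw [hJ, ← integral_const_mul]
      refine integral_mono_ae (integrable_pq vol _ ρm ρ0 ρb _) (i1.const_mul _) ?_
      filter_upwards [hUl, hle] with x hx hx'
      show ρ x * _ ≤ 2 * (Real.exp (U x) * _)
      rw [← mul_assoc]
      refine mul_le_mul_of_nonneg_right ((Real.exp_le_exp.2 (kap_mono h0 le_rfl hx')).trans ?_)
        (pq_nonneg vol _ _ x)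
      rw [exp_kap, mul_add, ← Real.exp_add, ← two_mul]
      exact mul_le_mul_of_nonneg_left (Real.exp_le_exp.2 (by linarith)) zero_le_two
    have b3 := (y2 (lowC K w hw)).trans (mul_le_mul_of_nonneg_left b2 (mul_nonneg hC0 hI0))
    rw [← norm_neg] at b3
    rw [LinearMap.sub_apply, sub_eq_add_neg]
    refine (sq_add_le b1 b3).trans ?_
    have q1 := mul_nonneg hI0 hJ0
    have q2 := mul_nonneg hC0 q1
    have q3 := mul_nonneg hE0.le q1
    have q4 := mul_nonneg hX.le q2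
    nlinarith

end

end Crest.Agent.X261.Hs
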